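import Vale.Agent.P099.MathlibUsed
import Mathlib.MeasureTheory.Measure.Decomposition.IntegralRNDeriv
import Mathlib.MeasureTheory.Integral.Prod
import Mathlib.MeasureTheory.Integral.DominatedConvergence
import Mathlib.MeasureTheory.Function.SimpleFuncDenseLp

set_option linter.all false

open MeasureTheory Set Filter Topology

namespace Vale.Agent.P099.R2.H278

/-- finite averaging weights -/
structure Wt where
  F : ℕ → Finset ℕ
  w : ℕ → ℝ
  w0 : ∀ N, 0 ≤ w N
  tot : ∀ N, (F N).card * w N ≤ 1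

/-- a real sequence is null for the averages -/
def Wt.Null (W : Wt) (c : ℕ → ℝ) : Prop :=
  Tendsto (fun N => W.w N * ∑ n ∈ W.F N, |c n|) atTop (𝓝 0)

/-- ordinary convergence -/
noncomputable def Wt.one : Wt where
  F := fun N => {N}
  w := fun _ => 1
  w0 := fun _ => zero_le_one
  tot := fun N => by simp

/-- Cesaro means -/
noncomputable def Wt.ces : Wt where
  F := fun N => Finset.range N
  w := fun N => (N : ℝ)⁻¹
  w0 := fun N => by positivity
  tot := fun N => by
    rcases Nat.eq_zero_or_pos N with h | h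
    · simp [h]
    · simp only [Finset.card_range]
      rw [mul_inv_cancel₀ (by positivity)]

lemma Wt.null_one {c : ℕ → ℝ} : Wt.one.Null c ↔ Tendsto c atTop (𝓝 0) := by
  unfold Wt.Null Wt.one
  simp only [Finset.sum_singleton, one_mul]
  exact (tendsto_zero_iff_abs_tendsto_zero c).symm

variable {W : Wt}

lemma Wt.avg_nonneg (W : Wt) (c : ℕ → ℝ) (N : ℕ) : 0 ≤ W.w N * ∑ n ∈ W.F N, |c n| :=
  mul_nonneg (W.w0 N) (Finset.sum_nonneg fun _ _ => abs_nonneg _)

lemma Wt.avg_le (W : Wt) {c : ℕ → ℝ} {C : ℝ} (hC : 0 ≤ C) (h : ∀ n, |c n| ≤ C) (N : ℕ) :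
    W.w N * ∑ n ∈ W.F N, |c n| ≤ C := by
  calc W.w N * ∑ n ∈ W.F N, |c n| ≤ W.w N * ((W.F N).card * C) := by
        refine mul_le_mul_of_nonneg_left ?_ (W.w0 N)
        calc ∑ n ∈ W.F N, |c n| ≤ ∑ _n ∈ W.F N, C := Finset.sum_le_sum fun n _ => h n
          _ = (W.F N).card * C := by rw [Finset.sum_const, nsmul_eq_mul]
    _ = ((W.F N).card * W.w N) * C := by ring
    _ ≤ 1 * C := mul_le_mul_of_nonneg_right (W.tot N) hC
    _ = C := one_mul C

lemma Wt.Null.mono {c d : ℕ → ℝ} (h : W.Null d) (hcd : ∀ n, |c n| ≤ |d n|) : W.Null c := by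
  refine squeeze_zero (fun N => W.avg_nonneg c N) (fun N => ?_) h
  exact mul_le_mul_of_nonneg_left (Finset.sum_le_sum fun n _ => hcd n) (W.w0 N)

lemma Wt.Null.congr {c d : ℕ → ℝ} (h : W.Null d) (hcd : ∀ n, c n = d n) : W.Null c :=
  h.mono fun n => by rw [hcd n]

lemma Wt.Null.add {c d : ℕ → ℝ} (hc : W.Null c) (hd : W.Null d) :
    W.Null (fun n => c n + d n) := by
  have h := Tendsto.add hc hd
  rw [add_zero] at h
  refine squeeze_zero (fun N => W.avg_nonneg _ N) (fun N => ?_) h
  rw [← mul_add, ← Finset.sum_add_distrib]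
  exact mul_le_mul_of_nonneg_left (Finset.sum_le_sum fun n _ => abs_add_le _ _) (W.w0 N)

lemma Wt.Null.const_mul {c : ℕ → ℝ} (hc : W.Null c) (a : ℝ) :
    W.Null (fun n => a * c n) := by
  have h := Tendsto.const_mul |a| hc
  rw [mul_zero] at h
  refine h.congr fun N => ?_
  simp only [abs_mul, ← Finset.mul_sum]
  ring

/-- approximation -/
lemma Wt.null_of_approx {c : ℕ → ℝ}
    (h : ∀ ε > 0, ∃ d : ℕ → ℝ, W.Null d ∧ ∀ n, |c n| ≤ ε + |d n|) : W.Null c := by
  rw [Wt.Null, Metric.tendsto_atTop]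
  intro ε hε
  obtain ⟨d, hd, hcd⟩ := h (ε / 2) (half_pos hε)
  rw [Wt.Null, Metric.tendsto_atTop] at hd
  obtain ⟨N0, hN0⟩ := hd (ε / 2) (half_pos hε)
  refine ⟨N0, fun N hN => ?_⟩
  have h1 := hN0 N hN
  rw [Real.dist_eq, sub_zero, abs_of_nonneg (W.avg_nonneg _ _)] at h1 ⊢
  calc W.w N * ∑ n ∈ W.F N, |c n| ≤ W.w N * ∑ n ∈ W.F N, (ε / 2 + |d n|) :=
        mul_le_mul_of_nonneg_left (Finset.sum_le_sum fun n _ => hcd n) (W.w0 N)
    _ = ((W.F N).card * W.w N) * (ε / 2) + W.w N * ∑ n ∈ W.F N, |d n| := by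
        rw [Finset.sum_add_distrib, Finset.sum_const, nsmul_eq_mul]; ring
    _ ≤ 1 * (ε / 2) + W.w N * ∑ n ∈ W.F N, |d n| := by
        gcongr
        exact W.tot N
    _ < ε := by linarith

variable {X : Type} [MeasurableSpace X] {μ : Measure X} [IsFiniteMeasure μ]

/-- weak null convergence against sets implies weak null convergence against `L¹` -/
lemma null_integrable {g : ℕ → X → ℝ} (hg : ∀ n, Measurable (g n)) (hb : ∀ n x, |g n x| ≤ 1)
    (h : ∀ B, MeasurableSet B → W.Null fun n => ∫ x in B, g n x ∂μ) {k : X → ℝ}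
    (hk : Integrable k μ) : W.Null fun n => ∫ x, k x * g n x ∂μ := by
  have hint : ∀ {k : X → ℝ}, Integrable k μ → ∀ n, Integrable (fun x => k x * g n x) μ := by
    intro k hk n
    exact hk.mul_bdd (c := 1) (hg n).aestronglyMeasurable (ae_of_all _ fun x => by
      rw [Real.norm_eq_abs]; exact hb n x)
  refine Integrable.induction (P := fun k => W.Null fun n => ∫ x, k x * g n x ∂μ) ?_ ?_ ?_ ?_ hk
  · intro c s hs _
    refine ((h s hs).const_mul c).congr fun n => ?_
    rw [← integral_const_mul, ← integral_indicator hs]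
    congr 1
    ext x
    by_cases hx : x ∈ s
    · simp [hx]
    · simp [hx]
  · intro f1 f2 _ h1 h2 h3 h4
    refine (h3.add h4).congr fun n => ?_
    rw [← integral_add (hint h1 n) (hint h2 n)]
    congr 1
    ext x
    simp only [Pi.add_apply]
    ring
  · rw [← isSeqClosed_iff_isClosed]
    intro u f hu hf
    refine Wt.null_of_approx fun ε hε => ?_
    have h1 : Tendsto (fun m => ‖u m - f‖) atTop (𝓝 0) := by
      rw [← dist_self f]
      have := (hf.dist (tendsto_const_nhds (x := f)))
      refine this.congr fun m => ?_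
      rw [dist_eq_norm]
    obtain ⟨m, hm⟩ := ((tendsto_order.1 h1).2 ε hε).exists
    refine ⟨_, hu m, fun n => ?_⟩
    have h2 : ∫ x, f x * g n x ∂μ = (∫ x, (f x - u m x) * g n x ∂μ) + ∫ x, u m x * g n x ∂μ := by
      have h20 := integral_add (hint ((L1.integrable_coeFn f).sub (L1.integrable_coeFn (u m))) n)
        (hint (L1.integrable_coeFn (u m)) n)
      simp only [Pi.sub_apply] at h20
      rw [← h20]
      congr 1
      ext x
      ring
    have h3 : |∫ x, (f x - u m x) * g n x ∂μ| ≤ ε := by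
      calc |∫ x, (f x - u m x) * g n x ∂μ| ≤ ∫ x, |(f x - u m x) * g n x| ∂μ :=
            abs_integral_le_integral_abs
        _ ≤ ∫ x, |f x - u m x| ∂μ := by
            refine integral_mono_of_nonneg (ae_of_all _ fun x => abs_nonneg _)
              ((L1.integrable_coeFn f).sub (L1.integrable_coeFn (u m))).abs
              (ae_of_all _ fun x => ?_)
            simp only
            rw [abs_mul]
            exact mul_le_of_le_one_right (abs_nonneg _) (hb n x)
        _ = ‖u m - f‖ := by
            rw [L1.norm_eq_integral_norm]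
            refine integral_congr_ae ?_
            filter_upwards [Lp.coeFn_sub (u m) f] with x hx
            rw [hx, Real.norm_eq_abs, Pi.sub_apply, abs_sub_comm]
        _ ≤ ε := hm.le
    rw [h2]
    exact (abs_add_le _ _).trans (by linarith)
  · intro f1 f2 h12 _ h1
    refine h1.congr fun n => ?_
    refine integral_congr_ae ?_
    filter_upwards [h12] with x hx
    rw [hx]

/-- dominated convergence for the averages -/
lemma null_dct {Y : Type} [MeasurableSpace Y] {κ : Measure Y} {c : ℕ → Y → ℝ} {b : Y → ℝ}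
    (hc : ∀ n, AEStronglyMeasurable (c n) κ) (hbi : Integrable b κ)
    (hcb : ∀ n, ∀ᵐ y ∂κ, |c n y| ≤ b y) (h : ∀ᵐ y ∂κ, W.Null fun n => c n y) :
    W.Null fun n => ∫ y, |c n y| ∂κ := by
  have hi : ∀ n, Integrable (fun y => |c n y|) κ := by
    intro n
    refine Integrable.mono' hbi ((hc n).norm) ?_
    filter_upwards [hcb n] with y hy
    rw [Real.norm_eq_abs, abs_abs]
    exact hy
  have h1 : ∀ N, W.w N * ∑ n ∈ W.F N, |∫ y, |c n y| ∂κ| =
      ∫ y, W.w N * ∑ n ∈ W.F N, |c n y| ∂κ := by
    intro N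
    rw [integral_const_mul, integral_finset_sum _ fun n _ => hi n]
    congr 1
    refine Finset.sum_congr rfl fun n _ => ?_
    exact abs_of_nonneg (integral_nonneg fun y => abs_nonneg _)
  have h2 : Tendsto (fun N => ∫ y, W.w N * ∑ n ∈ W.F N, |c n y| ∂κ) atTop
      (𝓝 (∫ _y, (0 : ℝ) ∂κ)) := by
    refine tendsto_integral_of_dominated_convergence b ?_ hbi ?_ ?_
    · intro N
      refine AEStronglyMeasurable.const_mul ?_ _
      exact Finset.aestronglyMeasurable_fun_sum _ fun n _ => (hc n).norm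
    · intro N
      have h3 : ∀ᵐ y ∂κ, ∀ n, |c n y| ≤ b y := ae_all_iff.2 hcb
      filter_upwards [h3] with y hy
      have hby : 0 ≤ b y := (abs_nonneg _).trans (hy 0)
      rw [Real.norm_eq_abs, abs_of_nonneg (W.avg_nonneg (fun n => c n y) N)]
      exact W.avg_le hby hy N
    · filter_upwards [h] with y hy
      exact hy
  rw [integral_zero] at h2
  exact h2.congr fun N => (h1 N).symm

/-- From weak to strong: pairs seen through an absolutely continuous measure. -/
theorem null_pairs {g : ℕ → X → ℝ} (hg : ∀ n, Measurable (g n)) (hb : ∀ n x, |g n x| ≤ 1)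
    (h : ∀ B, MeasurableSet B → W.Null fun n => ∫ x in B, g n x ∂μ)
    {ρ : Measure (X × X)} [IsFiniteMeasure ρ] (hρ : ρ ≪ μ.prod μ) :
    W.Null fun n => ∫ z, g n z.1 * g n z.2 ∂ρ := by
  set K : X × X → ℝ := fun z => (ρ.rnDeriv (μ.prod μ) z).toReal with hK
  have hKi : Integrable K (μ.prod μ) := Measure.integrable_toReal_rnDeriv
  have hgg : ∀ n, Measurable fun z : X × X => g n z.1 * g n z.2 := fun n =>
    ((hg n).comp measurable_fst).mul ((hg n).comp measurable_snd)
  have hggb : ∀ n (z : X × X), |g n z.1 * g n z.2| ≤ 1 := fun n z => by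
    rw [abs_mul]
    exact mul_le_one₀ (hb n _) (abs_nonneg _) (hb n _)
  have h1 : ∀ n, ∫ z, g n z.1 * g n z.2 ∂ρ = ∫ z, K z * (g n z.1 * g n z.2) ∂(μ.prod μ) := by
    intro n
    rw [← integral_rnDeriv_smul hρ]
    rfl
  have hKgg : ∀ n, Integrable (fun z => K z * (g n z.1 * g n z.2)) (μ.prod μ) := by
    intro n
    exact hKi.mul_bdd (c := 1) (hgg n).aestronglyMeasurable (ae_of_all _ fun x => by
      rw [Real.norm_eq_abs]; exact hggb n x)
  have hKg : ∀ n, Integrable (fun z : X × X => K z * g n z.1) (μ.prod μ) := by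
    intro n
    exact hKi.mul_bdd (c := 1) ((hg n).comp measurable_fst).aestronglyMeasurable
      (ae_of_all _ fun x => by rw [Real.norm_eq_abs]; exact hb n x.1)
  set c : ℕ → X → ℝ := fun n q => ∫ p, K (p, q) * g n p ∂μ with hc
  have hnull : W.Null fun n => ∫ q, |c n q| ∂μ := by
    refine null_dct (b := fun q => ∫ p, |K (p, q)| ∂μ) ?_ ?_ ?_ ?_
    · intro n
      exact (hKg n).integral_prod_right.aestronglyMeasurable
    · exact hKi.abs.integral_prod_right
    · intro n
      filter_upwards [hKi.prod_left_ae] with q hq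
      calc |∫ p, K (p, q) * g n p ∂μ| ≤ ∫ p, |K (p, q) * g n p| ∂μ :=
            abs_integral_le_integral_abs
        _ ≤ ∫ p, |K (p, q)| ∂μ := by
            refine integral_mono_of_nonneg (ae_of_all _ fun x => abs_nonneg _) hq.abs
              (ae_of_all _ fun x => ?_)
            simp only
            rw [abs_mul]
            exact mul_le_of_le_one_right (abs_nonneg _) (hb n x)
    · filter_upwards [hKi.prod_left_ae] with q hq
      exact null_integrable hg hb h hq
  refine hnull.mono fun n => ?_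
  rw [h1 n, integral_prod_symm _ (hKgg n)]
  have h6 : |∫ q, |c n q| ∂μ| = ∫ q, |c n q| ∂μ :=
    abs_of_nonneg (integral_nonneg fun q => abs_nonneg (c n q))
  rw [h6]
  calc |∫ q, ∫ p, K (p, q) * (g n p * g n q) ∂μ ∂μ|
      ≤ ∫ q, |∫ p, K (p, q) * (g n p * g n q) ∂μ| ∂μ := abs_integral_le_integral_abs
    _ ≤ ∫ q, |c n q| ∂μ := by
        refine integral_mono_of_nonneg (ae_of_all _ fun x => abs_nonneg _) ?_
          (ae_of_all _ fun q => ?_)
        · exact (hKg n).integral_prod_right.abs
        · simp only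
          have h5 : ∫ p, K (p, q) * (g n p * g n q) ∂μ = c n q * g n q := by
            rw [hc]
            simp only
            rw [← integral_mul_const]
            congr 1
            ext p
            ring
          rw [h5, abs_mul]
          exact mul_le_of_le_one_right (abs_nonneg _) (hb n q)

end Vale.Agent.P099.R2.H278
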