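import Vale.Agent.P099.R2.H278.Final

set_option linter.all false

open MeasureTheory Set Filter Topology

namespace Vale.Agent.P099.R2.H278

open Vale.Agent.P099 Vale.Agent.P099T

/-- from sequences to all filters, when countably many functions control the limit -/
lemma tendsto_of_crit {Y : Type} {l : Filter Y} {F : ℕ → Y → ℝ} {c : Y → ℝ}
    (hseq : ∀ t : ℕ → Y, (∀ i, Tendsto (fun n => F i (t n)) atTop (𝓝 0)) →
      Tendsto (fun n => c (t n)) atTop (𝓝 0))
    (hF : ∀ i, Tendsto (F i) l (𝓝 0)) : Tendsto c l (𝓝 0) := by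
  rw [Metric.tendsto_nhds]
  intro ε hε
  have key : ∃ n : ℕ, ∀ t, (∀ i ≤ n, |F i t| < 1 / ((n : ℝ) + 1)) → |c t| < ε := by
    by_contra hcon
    push Not at hcon
    choose t ht1 ht2 using hcon
    have h1 : ∀ i, Tendsto (fun n => F i (t n)) atTop (𝓝 0) := by
      intro i
      rw [tendsto_zero_iff_abs_tendsto_zero]
      refine squeeze_zero' (Eventually.of_forall fun n => abs_nonneg _) ?_
        (tendsto_one_div_add_atTop_nhds_zero_nat (𝕜 := ℝ))
      filter_upwards [eventually_ge_atTop i] with n hn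
      exact (ht1 n i hn).le
    have h2 := (hseq t h1).abs
    rw [abs_zero] at h2
    obtain ⟨n, hn⟩ := ((tendsto_order.1 h2).2 ε hε).exists
    exact absurd hn (not_lt.2 (ht2 n))
  obtain ⟨n, hn⟩ := key
  have h3 : ∀ᶠ t in l, ∀ i ∈ Finset.range (n + 1), |F i t| < 1 / ((n : ℝ) + 1) := by
    rw [Filter.eventually_all_finset]
    intro i _
    have h4 := (hF i).abs
    rw [abs_zero] at h4
    exact (tendsto_order.1 h4).2 _ (by positivity)
  filter_upwards [h3] with t ht
  rw [Real.dist_eq, sub_zero]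
  exact hn t fun i hi => ht i (Finset.mem_range.2 (Nat.lt_succ_of_le hi))

variable {N : ℕ} {T : PolygonalTable N}

/-- change of the directions -/
lemma circ_approx {Θ : ℝ → ℂ × ℂ → ℂ × ℂ} (hΘ : Measurable fun z : ℝ × (ℂ × ℂ) => Θ z.1 z.2)
    {A : Set (ℂ × ℂ)} (hA : MeasurableSet A) {I I' : Set ℂ} (hI : MeasurableSet I)
    (hI' : MeasurableSet I') (t : ℝ) :
    |circ T Θ A I t - circ T Θ A I' t| ≤ 2 * nu.real (symmDiff I I') := by
  have hg := obs_meas (T := T) hΘ hA t
  have hgb : ∀ p, |obs T Θ A t p| ≤ 1 := obs_le t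
  have hm : ∀ J : Set ℂ, Measurable fun x => ∫ θ in J, obs T Θ A t (x, θ) ∂nu := fun J =>
    (measurable_arc hg hgb J).measurable
  have hb : ∀ (J : Set ℂ) x, |∫ θ in J, obs T Θ A t (x, θ) ∂nu| ≤ 1 := fun J => arc_le hg hgb J
  have hi : ∀ J : Set ℂ, Integrable (fun x => (∫ θ in J, obs T Θ A t (x, θ) ∂nu) ^ 2) (pos T) :=
    fun J => int_of_bdd ((hm J).pow_const 2) (C := 1) fun x => by
      rw [abs_pow]
      exact pow_le_one₀ (abs_nonneg _) (hb J x)
  have hd : ∀ x, |∫ θ in I, obs T Θ A t (x, θ) ∂nu - ∫ θ in I', obs T Θ A t (x, θ) ∂nu| ≤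
      nu.real (symmDiff I I') := by
    intro x
    have hx : Integrable (fun θ => obs T Θ A t (x, θ)) nu :=
      int_of_bdd (hg.comp measurable_prodMk_left) fun θ => hgb _
    have hsplit : ∀ {J K : Set ℂ}, MeasurableSet J → MeasurableSet K →
        ∫ θ in J, obs T Θ A t (x, θ) ∂nu = ∫ θ in J ∩ K, obs T Θ A t (x, θ) ∂nu +
          ∫ θ in J \ K, obs T Θ A t (x, θ) ∂nu := fun {J K} hJ hK =>
      (integral_inter_add_diff hK hx.integrableOn).symm
    have hle : ∀ J : Set ℂ, |∫ θ in J, obs T Θ A t (x, θ) ∂nu| ≤ nu.real J := by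
      intro J
      calc |∫ θ in J, obs T Θ A t (x, θ) ∂nu| ≤ ∫ θ in J, |obs T Θ A t (x, θ)| ∂nu :=
            abs_integral_le_integral_abs
        _ ≤ ∫ θ in J, (1 : ℝ) ∂nu := by
            refine integral_mono_of_nonneg (ae_of_all _ fun x => abs_nonneg _)
              (integrable_const _) (ae_of_all _ fun x => hgb _)
        _ = nu.real J := by
            rw [integral_const, smul_eq_mul, mul_one, Measure.real, Measure.restrict_apply_univ]
            rfl
    rw [hsplit hI hI', hsplit hI' hI, inter_comm I' I]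
    have h1 : ∀ a b c : ℝ, a + b - (a + c) = b - c := fun a b c => by ring
    rw [h1]
    refine (abs_sub _ _).trans ((add_le_add (hle _) (hle _)).trans (le_of_eq ?_))
    rw [← measureReal_union (disjoint_sdiff_sdiff) (hI'.diff hI)]
    rfl
  rw [circ_eq hΘ hA, circ_eq hΘ hA, ← integral_sub (hi I) (hi I')]
  calc |∫ x, ((∫ θ in I, obs T Θ A t (x, θ) ∂nu) ^ 2 -
        (∫ θ in I', obs T Θ A t (x, θ) ∂nu) ^ 2) ∂(pos T)|
      ≤ ∫ x, |(∫ θ in I, obs T Θ A t (x, θ) ∂nu) ^ 2 -
        (∫ θ in I', obs T Θ A t (x, θ) ∂nu) ^ 2| ∂(pos T) := abs_integral_le_integral_abs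
    _ ≤ ∫ x, 2 * nu.real (symmDiff I I') ∂(pos T) := by
        refine integral_mono_of_nonneg (ae_of_all _ fun x => abs_nonneg _)
          (integrable_const _) (ae_of_all _ fun x => ?_)
        simp only
        rw [sq, sq]
        refine (abs_mul_sub_mul_le (hb I x) (hb I' x)).trans ?_
        have := hd x
        linarith
    _ = 2 * nu.real (symmDiff I I') := by simp

/-- The equivalence along every filter of times. -/
theorem circ_iff_all (T : PolygonalTable N) {Φ : ℝ → ℂ × ℂ → ℂ × ℂ}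
    (hΦ : T.IsBilliardFlow Φ) {A : Set (ℂ × ℂ)} (hA : MeasurableSet A) (l : Filter ℝ) :
    (∀ B, MeasurableSet B →
      Tendsto (fun t => T.mu.real (Φ t ⁻¹' A ∩ B)) l (𝓝 (T.mu.real A * T.mu.real B))) ↔
    ∀ I : Set ℂ, MeasurableSet I → Tendsto (fun t => circ T Φ A I t) l (𝓝 0) := by
  obtain ⟨Θ, hΘ, hb, hu⟩ := exists_good_table_flow T
  have e1 : ∀ (B : Set (ℂ × ℂ)) (t : ℝ), T.mu.real (Φ t ⁻¹' A ∩ B) - T.mu.real A * T.mu.real B =
      cor T Θ A B t := fun B t => by
    unfold cor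
    rw [corr_congr (hu Φ hΦ t)]
  have e2 : ∀ (I : Set ℂ) t, circ T Φ A I t = circ T Θ A I t := fun I t =>
    circ_congr (hu Φ hΦ t) A I
  have e3 : ∀ B, Tendsto (fun t => T.mu.real (Φ t ⁻¹' A ∩ B)) l (𝓝 (T.mu.real A * T.mu.real B)) ↔
      Tendsto (fun t => cor T Θ A B t) l (𝓝 0) := fun B => by
    rw [← tendsto_sub_nhds_zero_iff]
    simp only [e1]
  simp only [e2, e3]
  have hsq := fun t : ℕ → ℝ => circ_iff Wt.one T hb hA t
  constructor
  · intro h I hI
    obtain ⟨𝒜, hcount, hdense⟩ := exists_countable_measureDense T.mu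
    obtain ⟨f, hf⟩ := hcount.exists_eq_range hdense.nonempty
    have hfm : ∀ i, MeasurableSet (f i) := fun i => hdense.measurable _ (hf ▸ mem_range_self i)
    refine tendsto_of_crit (F := fun i t => cor T Θ A (f i) t) (fun t ht => ?_)
      fun i => h (f i) (hfm i)
    refine Wt.null_one.1 ((hsq t).1 (fun B hB => Wt.null_one.2 ?_) I hI)
    show Tendsto (fun n => cor T Θ A B (t n)) atTop (𝓝 0)
    rw [Metric.tendsto_nhds]
    intro ε hε
    obtain ⟨B', hB', hBB⟩ := hdense.approx B hB (measure_ne_top _ _) (ε / 8) (by linarith)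
    rw [hf] at hB'
    obtain ⟨j, rfl⟩ := hB'
    have h2 := ht j
    rw [Metric.tendsto_nhds] at h2
    filter_upwards [h2 (ε / 2) (by linarith)] with n hn
    rw [Real.dist_eq, sub_zero] at hn ⊢
    have h3 := cor_approx (T := T) hΘ.mp hA hA hB (hfm j) (t n)
    rw [symmDiff_self] at h3
    have h4 : T.mu.real (⊥ : Set (ℂ × ℂ)) = 0 := by
      show T.mu.real ∅ = 0
      exact measureReal_empty
    rw [h4] at h3
    have h5 : T.mu.real (symmDiff B (f j)) < ε / 8 :=
      (ENNReal.lt_ofReal_iff_toReal_lt (measure_ne_top _ _)).1 hBB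
    have h6 := abs_sub_abs_le_abs_sub (cor T Θ A B (t n)) (cor T Θ A (f j) (t n))
    linarith
  · intro h B hB
    obtain ⟨𝒜, hcount, hdense⟩ := exists_countable_measureDense nu
    obtain ⟨f, hf⟩ := hcount.exists_eq_range hdense.nonempty
    have hfm : ∀ i, MeasurableSet (f i) := fun i => hdense.measurable _ (hf ▸ mem_range_self i)
    refine tendsto_of_crit (F := fun i t => circ T Θ A (f i) t) (fun t ht => ?_)
      fun i => h (f i) (hfm i)
    refine Wt.null_one.1 ((hsq t).2 (fun I hI => Wt.null_one.2 ?_) B hB)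
    rw [Metric.tendsto_nhds]
    intro ε hε
    obtain ⟨I', hI', hII⟩ := hdense.approx I hI (measure_ne_top _ _) (ε / 8) (by linarith)
    rw [hf] at hI'
    obtain ⟨j, rfl⟩ := hI'
    have h2 := ht j
    rw [Metric.tendsto_nhds] at h2
    filter_upwards [h2 (ε / 2) (by linarith)] with n hn
    rw [Real.dist_eq, sub_zero] at hn ⊢
    have h3 := circ_approx (T := T) hΘ.meas hA hI (hfm j) (t n)
    have h5 : nu.real (symmDiff I (f j)) < ε / 8 :=
      (ENNReal.lt_ofReal_iff_toReal_lt (measure_ne_top _ _)).1 hII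
    have h6 := abs_sub_abs_le_abs_sub (circ T Θ A I (t n)) (circ T Θ A (f j) (t n))
    linarith

end Vale.Agent.P099.R2.H278
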