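import Vale.Agent.P099.MathlibUsed
import Mathlib.Dynamics.BirkhoffSum.Average
import Mathlib.Dynamics.BirkhoffSum.NormedSpace
import Mathlib.Dynamics.Ergodic.Function
import Mathlib.MeasureTheory.Integral.DominatedConvergence
import Mathlib.MeasureTheory.Constructions.BorelSpace.Metrizable

set_option linter.all false

/-! Birkhoff's pointwise ergodic theorem, copied from the starting file P115/Bdl/B1.lean, and its
ergodic form. -/

open MeasureTheory Filter Topology

namespace Vale.Agent.P099.R2.H278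

variable {X : Type*}

/-- running maximum of the Birkhoff sums -/
noncomputable def maxS (T : X → X) (f : X → ℝ) : ℕ → X → ℝ
  | 0, _ => 0
  | N + 1, x => max 0 (f x + maxS T f N (T x))

theorem maxS_nonneg (T : X → X) (f : X → ℝ) (N : ℕ) (x : X) : 0 ≤ maxS T f N x := by
  cases N with
  | zero => simp [maxS]
  | succ N => simp [maxS]

theorem maxS_le_succ (T : X → X) (f : X → ℝ) (N : ℕ) :
    ∀ x, maxS T f N x ≤ maxS T f (N + 1) x := by
  induction N with
  | zero => intro x; exact maxS_nonneg T f 1 x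
  | succ N ih =>
    intro x
    have h1 : maxS T f (N + 1) x = max 0 (f x + maxS T f N (T x)) := rfl
    have h2 : maxS T f (N + 1 + 1) x = max 0 (f x + maxS T f (N + 1) (T x)) := rfl
    rw [h1, h2]
    exact max_le_max le_rfl (add_le_add le_rfl (ih (T x)))

theorem maxS_mono (T : X → X) (f : X → ℝ) (x : X) : Monotone fun N => maxS T f N x :=
  monotone_nat_of_le_succ fun N => maxS_le_succ T f N x

theorem birkhoffSum_le_maxS (T : X → X) (f : X → ℝ) (N : ℕ) :
    ∀ x, birkhoffSum T f N x ≤ maxS T f N x := by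
  induction N with
  | zero => intro x; simp [maxS]
  | succ N ih =>
    intro x
    rw [birkhoffSum_succ']
    exact le_max_of_le_right (add_le_add le_rfl (ih (T x)))

variable [MeasurableSpace X] {μ : Measure X}

theorem measurable_maxS {T : X → X} (hT : Measurable T) {f : X → ℝ} (hf : Measurable f) (N : ℕ) :
    Measurable (maxS T f N) := by
  induction N with
  | zero => exact measurable_const
  | succ N ih => exact measurable_const.max (hf.add (ih.comp hT))

theorem integrable_maxS {T : X → X} (hT : MeasurePreserving T μ μ) {f : X → ℝ}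
    (hf : Integrable f μ) (N : ℕ) : Integrable (maxS T f N) μ := by
  induction N with
  | zero => exact integrable_zero _ _ _
  | succ N ih =>
    have h1 : Integrable (fun x => f x + maxS T f N (T x)) μ :=
      hf.add (hT.integrable_comp_of_integrable ih)
    exact (integrable_zero X ℝ μ).sup h1

/-- Maximal ergodic theorem on the level sets of the running maximum. -/
theorem maximal_ergodic_aux {T : X → X} (hT : MeasurePreserving T μ μ)
    {f : X → ℝ} (hf : Measurable f) (hfi : Integrable f μ) (N : ℕ) :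
    0 ≤ ∫ x in {x | 0 < maxS T f (N + 1) x}, f x ∂μ := by
  set M := maxS T f (N + 1) with hM
  have hMm : Measurable M := measurable_maxS hT.measurable hf (N + 1)
  have hMi : Integrable M μ := integrable_maxS hT hfi (N + 1)
  have hS : MeasurableSet {x | 0 < M x} := measurableSet_lt measurable_const hMm
  have hMTi : Integrable (fun x => M (T x)) μ := hT.integrable_comp_of_integrable hMi
  have key : ∀ x ∈ {x | 0 < M x}, M x - M (T x) ≤ f x := by
    intro x hx
    have h1 : M x = max 0 (f x + maxS T f N (T x)) := rfl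
    have hx' : 0 < M x := hx
    have h2 : M x = f x + maxS T f N (T x) := by
      rcases max_choice 0 (f x + maxS T f N (T x)) with h | h
      · rw [h1, h] at hx'; exact absurd hx' (lt_irrefl _)
      · rw [h1, h]
    have h3 := maxS_le_succ T f N (T x)
    have h4 : M (T x) = maxS T f (N + 1) (T x) := rfl
    rw [h2, h4]
    linarith
  have e1 : ∫ x in {x | 0 < M x}, (M x - M (T x)) ∂μ ≤ ∫ x in {x | 0 < M x}, f x ∂μ :=
    setIntegral_mono_on (hMi.sub hMTi).integrableOn hfi.integrableOn hS key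
  have e2 : ∫ x in {x | 0 < M x}, (M x - M (T x)) ∂μ =
      ∫ x in {x | 0 < M x}, M x ∂μ - ∫ x in {x | 0 < M x}, M (T x) ∂μ :=
    integral_sub hMi.integrableOn hMTi.integrableOn
  have e3 : ∫ x in {x | 0 < M x}, M x ∂μ = ∫ x, M x ∂μ := by
    apply setIntegral_eq_integral_of_forall_compl_eq_zero
    intro x hx
    have hx' : ¬ 0 < M x := hx
    exact le_antisymm (not_lt.1 hx') (maxS_nonneg T f (N + 1) x)
  have e4 : ∫ x in {x | 0 < M x}, M (T x) ∂μ ≤ ∫ x, M (T x) ∂μ :=
    setIntegral_le_integral hMTi (Eventually.of_forall fun x => maxS_nonneg T f (N + 1) (T x))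
  have e5 : ∫ x, M (T x) ∂μ = ∫ x, M x ∂μ := by
    have := integral_map (μ := μ) hT.measurable.aemeasurable (f := M)
      (by rw [hT.map_eq]; exact hMm.aestronglyMeasurable)
    rw [hT.map_eq] at this
    exact this.symm
  linarith

/-- Maximal ergodic theorem. -/
theorem maximal_ergodic {T : X → X} (hT : MeasurePreserving T μ μ)
    {f : X → ℝ} (hf : Measurable f) (hfi : Integrable f μ)
    (hpos : ∀ᵐ x ∂μ, ∃ n, 0 < birkhoffSum T f n x) : 0 ≤ ∫ x, f x ∂μ := by
  have hlim : Tendsto (fun N => ∫ x in {x | 0 < maxS T f (N + 1) x}, f x ∂μ) atTop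
      (𝓝 (∫ x, f x ∂μ)) := by
    have hSm : ∀ N, MeasurableSet {x | 0 < maxS T f (N + 1) x} := fun N =>
      measurableSet_lt measurable_const (measurable_maxS hT.measurable hf (N + 1))
    have : ∀ N, ∫ x in {x | 0 < maxS T f (N + 1) x}, f x ∂μ =
        ∫ x, Set.indicator {x | 0 < maxS T f (N + 1) x} f x ∂μ := fun N =>
      (integral_indicator (hSm N)).symm
    simp_rw [this]
    apply tendsto_integral_of_dominated_convergence (fun x => |f x|)
    · intro N
      exact (hf.indicator (hSm N)).aestronglyMeasurable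
    · exact hfi.abs
    · intro N
      filter_upwards with x
      rw [Set.indicator_apply]
      split_ifs
      · simp
      · simp
    · filter_upwards [hpos] with x hx
      obtain ⟨n, hn⟩ := hx
      apply tendsto_const_nhds.congr'
      filter_upwards [eventually_ge_atTop n] with N hN
      rw [Set.indicator_of_mem]
      have h1 := birkhoffSum_le_maxS T f n x
      have h2 : maxS T f n x ≤ maxS T f (N + 1) x := maxS_mono T f x (by omega)
      change 0 < maxS T f (N + 1) x
      linarith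
  exact ge_of_tendsto' hlim fun N => maximal_ergodic_aux hT hf hfi N

/-- If the Birkhoff averages are above `b` at some time a.e., then the integral is at
least `b` times the mass. -/
theorem maximal_ergodic_ge [IsFiniteMeasure μ] {T : X → X} (hT : MeasurePreserving T μ μ)
    {f : X → ℝ} (hf : Measurable f) (hfi : Integrable f μ) {b : ℝ}
    (hpos : ∀ᵐ x ∂μ, ∃ n, b < birkhoffAverage ℝ T f n x ∧ n ≠ 0) :
    b * μ.real Set.univ ≤ ∫ x, f x ∂μ := by
  have h := maximal_ergodic (μ := μ) hT (f := fun x => f x - b) (hf.sub_const b)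
    (hfi.sub (integrable_const b)) (by
      filter_upwards [hpos] with x hx
      obtain ⟨n, hn, hn0⟩ := hx
      refine ⟨n, ?_⟩
      have hn1 : (0 : ℝ) < n := by exact_mod_cast Nat.pos_of_ne_zero hn0
      have : birkhoffSum T (fun x => f x - b) n x = birkhoffSum T f n x - n * b := by
        simp [birkhoffSum, Finset.sum_sub_distrib]
      rw [this]
      rw [birkhoffAverage, smul_eq_mul, lt_inv_mul_iff₀ hn1] at hn
      linarith)
  rw [integral_sub hfi (integrable_const b)] at h
  simp only [integral_const, smul_eq_mul] at h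
  linarith

theorem maximal_ergodic_le [IsFiniteMeasure μ] {T : X → X} (hT : MeasurePreserving T μ μ)
    {f : X → ℝ} (hf : Measurable f) (hfi : Integrable f μ) {a : ℝ}
    (hpos : ∀ᵐ x ∂μ, ∃ n, birkhoffAverage ℝ T f n x < a ∧ n ≠ 0) :
    ∫ x, f x ∂μ ≤ a * μ.real Set.univ := by
  have := maximal_ergodic_ge hT (f := fun x => - f x) hf.neg hfi.neg
    (b := -a) (by
      filter_upwards [hpos] with x hx
      obtain ⟨n, hn, hn0⟩ := hx
      refine ⟨n, ?_, hn0⟩
      have : birkhoffAverage ℝ T (fun x => - f x) n x = - birkhoffAverage ℝ T f n x := by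
        simp [birkhoffAverage, birkhoffSum]
      rw [this]; linarith)
  rw [integral_neg] at this
  linarith

/-- Auxiliary: frequent lower values along two sequences asymptotic to each other. -/
theorem freq_lt_transfer (u v : ℕ → ℝ) (c : ℕ → ℝ) (d : ℕ → ℝ) (hc : Tendsto c atTop (𝓝 1))
    (hd : Tendsto d atTop (𝓝 0)) (hc0 : ∀ n, 0 < c n) (h : ∀ n, u n = c n * v n + d n) (a : ℝ)
    (hv : ∃ q : ℚ, (q : ℝ) < a ∧ ∃ᶠ n in atTop, v n < q) :
    ∃ q : ℚ, (q : ℝ) < a ∧ ∃ᶠ n in atTop, u n < q := by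
  obtain ⟨q, hqa, hq⟩ := hv
  obtain ⟨q', h1, h2⟩ := exists_rat_btwn hqa
  refine ⟨q', h2, ?_⟩
  have h3 : Tendsto (fun n => c n * (q : ℝ) + d n) atTop (𝓝 (1 * (q : ℝ) + 0)) :=
    (hc.mul_const _).add hd
  rw [one_mul, add_zero] at h3
  have h4 : ∀ᶠ n in atTop, c n * (q : ℝ) + d n < q' := h3.eventually_lt_const h1
  refine (hq.and_eventually h4).mono fun n hn => ?_
  rw [h n]
  have := mul_lt_mul_of_pos_left hn.1 (hc0 n)
  linarith [hn.2]

theorem freq_gt_transfer (u v : ℕ → ℝ) (c : ℕ → ℝ) (d : ℕ → ℝ) (hc : Tendsto c atTop (𝓝 1))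
    (hd : Tendsto d atTop (𝓝 0)) (hc0 : ∀ n, 0 < c n) (h : ∀ n, u n = c n * v n + d n) (b : ℝ)
    (hv : ∃ q : ℚ, b < (q : ℝ) ∧ ∃ᶠ n in atTop, (q : ℝ) < v n) :
    ∃ q : ℚ, b < (q : ℝ) ∧ ∃ᶠ n in atTop, (q : ℝ) < u n := by
  obtain ⟨q, hqa, hq⟩ := hv
  obtain ⟨q', h1, h2⟩ := exists_rat_btwn hqa
  refine ⟨q', h1, ?_⟩
  have h3 : Tendsto (fun n => c n * (q : ℝ) + d n) atTop (𝓝 (1 * (q : ℝ) + 0)) :=
    (hc.mul_const _).add hd
  rw [one_mul, add_zero] at h3
  have h4 : ∀ᶠ n in atTop, (q' : ℝ) < c n * (q : ℝ) + d n := h3.eventually_const_lt h2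
  refine (hq.and_eventually h4).mono fun n hn => ?_
  rw [h n]
  have := mul_lt_mul_of_pos_left hn.1 (hc0 n)
  linarith [hn.2]

omit [MeasurableSpace X] in
/-- shift identity for averages (indices shifted to avoid division by zero) -/
theorem birkhoffAverage_shift (T : X → X) (f : X → ℝ) (n : ℕ) (x : X) :
    birkhoffAverage ℝ T f (n + 2) x =
      ((n + 1 : ℝ) / (n + 2)) * birkhoffAverage ℝ T f (n + 1) (T x) + f x / (n + 2) := by
  have h1 : birkhoffAverage ℝ T f (n + 2) x = ((n + 2 : ℕ) : ℝ)⁻¹ * birkhoffSum T f (n + 2) x := rfl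
  have h2 : birkhoffAverage ℝ T f (n + 1) (T x) =
    ((n + 1 : ℕ) : ℝ)⁻¹ * birkhoffSum T f (n + 1) (T x) := rfl
  rw [h1, h2, birkhoffSum_succ']
  push_cast
  field_simp
  ring

omit [MeasurableSpace X] in
theorem birkhoffAverage_shift' (T : X → X) (f : X → ℝ) (n : ℕ) (x : X) :
    birkhoffAverage ℝ T f (n + 1) (T x) =
      ((n + 2 : ℝ) / (n + 1)) * birkhoffAverage ℝ T f (n + 2) x + (- f x) / (n + 1) := by
  rw [birkhoffAverage_shift]
  field_simp
  ring

theorem tendsto_coef1 : Tendsto (fun n : ℕ => ((n + 1 : ℝ) / (n + 2))) atTop (𝓝 1) := by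
  have : Tendsto (fun n : ℕ => 1 - (1 : ℝ) / ((n + 1 : ℕ) + 1)) atTop (𝓝 (1 - 0)) :=
    tendsto_const_nhds.sub
      ((tendsto_add_atTop_iff_nat 1).2 (tendsto_one_div_add_atTop_nhds_zero_nat (𝕜 := ℝ)))
  rw [sub_zero] at this
  refine this.congr fun n => ?_
  push_cast
  field_simp
  ring

theorem tendsto_coef2 : Tendsto (fun n : ℕ => ((n + 2 : ℝ) / (n + 1))) atTop (𝓝 1) := by
  have : Tendsto (fun n : ℕ => 1 + (1 : ℝ) / (n + 1)) atTop (𝓝 (1 + 0)) :=
    tendsto_const_nhds.add (tendsto_one_div_add_atTop_nhds_zero_nat (𝕜 := ℝ))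
  rw [add_zero] at this
  refine this.congr fun n => ?_
  field_simp
  ring

theorem tendsto_coef3 (c : ℝ) : Tendsto (fun n : ℕ => c / ((n : ℝ) + 2)) atTop (𝓝 0) := by
  have h : Tendsto (fun n : ℕ => (n : ℝ) + 2) atTop atTop :=
    tendsto_atTop_add_const_right _ _ tendsto_natCast_atTop_atTop
  exact h.const_div_atTop c

theorem tendsto_coef4 (c : ℝ) : Tendsto (fun n : ℕ => c / ((n : ℝ) + 1)) atTop (𝓝 0) := by
  have h : Tendsto (fun n : ℕ => (n : ℝ) + 1) atTop atTop :=
    tendsto_atTop_add_const_right _ _ tendsto_natCast_atTop_atTop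
  exact h.const_div_atTop c

theorem frequently_add_iff (p : ℕ → Prop) (k : ℕ) :
    (∃ᶠ n in atTop, p (n + k)) ↔ ∃ᶠ n in atTop, p n := by
  rw [Filter.Frequently, Filter.Frequently]
  apply not_congr
  constructor
  · intro h
    rw [eventually_atTop] at h ⊢
    obtain ⟨a, ha⟩ := h
    refine ⟨a + k, fun b hb => ?_⟩
    have := ha (b - k) (by omega)
    rwa [Nat.sub_add_cancel (by omega)] at this
  · intro h
    rw [eventually_atTop] at h ⊢
    obtain ⟨a, ha⟩ := h
    exact ⟨a, fun b hb => ha (b + k) (by omega)⟩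

/-- Birkhoff's pointwise ergodic theorem for measurable integrable real functions. -/
theorem birkhoff_real [IsFiniteMeasure μ] {T : X → X} (hT : MeasurePreserving T μ μ)
    {f : X → ℝ} (hf : Measurable f) (hfi : Integrable f μ) :
    ∀ᵐ x ∂μ, ∃ l, Tendsto (fun n => birkhoffAverage ℝ T f n x) atTop (𝓝 l) := by
  have hAm : ∀ n, Measurable (birkhoffAverage ℝ T f n) := by
    intro n
    have : birkhoffAverage ℝ T f n = fun x => (n : ℝ)⁻¹ * ∑ k ∈ Finset.range n, f (T^[k] x) := rfl
    rw [this]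
    exact (Finset.measurable_fun_sum _ fun k _ => hf.comp (hT.measurable.iterate k)).const_mul _
  have hL : ∀ q : ℝ, MeasurableSet {x | ∃ᶠ n in atTop, birkhoffAverage ℝ T f n x < q} := by
    intro q
    have : {x | ∃ᶠ n in atTop, birkhoffAverage ℝ T f n x < q} =
        ⋂ m : ℕ, ⋃ n : ℕ, ⋃ _ : m ≤ n, {x | birkhoffAverage ℝ T f n x < q} := by
      ext x
      simp [frequently_atTop]
    rw [this]
    exact MeasurableSet.iInter fun m => MeasurableSet.iUnion fun n => MeasurableSet.iUnion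
      fun _ => measurableSet_lt (hAm n) measurable_const
  have hG : ∀ q : ℝ, MeasurableSet {x | ∃ᶠ n in atTop, q < birkhoffAverage ℝ T f n x} := by
    intro q
    have : {x | ∃ᶠ n in atTop, q < birkhoffAverage ℝ T f n x} =
        ⋂ m : ℕ, ⋃ n : ℕ, ⋃ _ : m ≤ n, {x | q < birkhoffAverage ℝ T f n x} := by
      ext x
      simp [frequently_atTop]
    rw [this]
    exact MeasurableSet.iInter fun m => MeasurableSet.iUnion fun n => MeasurableSet.iUnion
      fun _ => measurableSet_lt measurable_const (hAm n)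
  -- the two kinds of sets
  let EL : ℝ → Set X := fun a =>
    {x | (∃ q : ℚ, (q : ℝ) < a ∧ ∃ᶠ n in atTop, birkhoffAverage ℝ T f n x < (q : ℝ))}
  let EG : ℝ → Set X := fun b =>
    {x | (∃ q : ℚ, b < (q : ℝ) ∧ ∃ᶠ n in atTop, (q : ℝ) < birkhoffAverage ℝ T f n x)}
  have hELm : ∀ a, MeasurableSet (EL a) := by
    intro a
    have e : EL a = (⋃ q : ℚ, ⋃ _ : (q : ℝ) < a,
        {x | ∃ᶠ n in atTop, birkhoffAverage ℝ T f n x < (q : ℝ)}) := by
      ext x
      simp [EL]
    rw [e]
    exact (MeasurableSet.iUnion fun q : ℚ => MeasurableSet.iUnion fun _ => hL q)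
  have hEGm : ∀ a, MeasurableSet (EG a) := by
    intro a
    have e : EG a = (⋃ q : ℚ, ⋃ _ : a < (q : ℝ),
        {x | ∃ᶠ n in atTop, (q : ℝ) < birkhoffAverage ℝ T f n x}) := by
      ext x
      simp [EG]
    rw [e]
    exact (MeasurableSet.iUnion fun q : ℚ => MeasurableSet.iUnion fun _ => hG q)
  have hELinv : ∀ a, T ⁻¹' (EL a) = EL a := by
    intro a
    ext x
    constructor
    · intro hx
      have hx1 : ∃ q : ℚ, (q : ℝ) < a ∧ ∃ᶠ n in atTop,
          birkhoffAverage ℝ T f (n + 1) (T x) < (q : ℝ) := by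
        obtain ⟨q, h1, h2⟩ := hx
        exact ⟨q, h1, (frequently_add_iff
          (fun n => birkhoffAverage ℝ T f n (T x) < (q : ℝ)) 1).2 h2⟩
      obtain ⟨q, h1, h2⟩ := freq_lt_transfer
        (fun n => birkhoffAverage ℝ T f (n + 2) x) _ _ _ tendsto_coef1 (tendsto_coef3 (f x))
        (fun n => by positivity) (fun n => birkhoffAverage_shift T f n x) a hx1
      exact ⟨q, h1, (frequently_add_iff
        (fun n => birkhoffAverage ℝ T f n x < (q : ℝ)) 2).1 h2⟩
    · intro hx
      have hx1 : ∃ q : ℚ, (q : ℝ) < a ∧ ∃ᶠ n in atTop,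
          birkhoffAverage ℝ T f (n + 2) x < (q : ℝ) := by
        obtain ⟨q, h1, h2⟩ := hx
        exact ⟨q, h1, (frequently_add_iff
          (fun n => birkhoffAverage ℝ T f n x < (q : ℝ)) 2).2 h2⟩
      obtain ⟨q, h1, h2⟩ := freq_lt_transfer
        (fun n => birkhoffAverage ℝ T f (n + 1) (T x)) _ _ _ tendsto_coef2 (tendsto_coef4 (-f x))
        (fun n => by positivity) (fun n => birkhoffAverage_shift' T f n x) a hx1
      exact ⟨q, h1, (frequently_add_iff
        (fun n => birkhoffAverage ℝ T f n (T x) < (q : ℝ)) 1).1 h2⟩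
  have hEGinv : ∀ a, T ⁻¹' (EG a) = EG a := by
    intro a
    ext x
    constructor
    · intro hx
      have hx1 : ∃ q : ℚ, a < (q : ℝ) ∧ ∃ᶠ n in atTop,
          (q : ℝ) < birkhoffAverage ℝ T f (n + 1) (T x) := by
        obtain ⟨q, h1, h2⟩ := hx
        exact ⟨q, h1, (frequently_add_iff
          (fun n => (q : ℝ) < birkhoffAverage ℝ T f n (T x)) 1).2 h2⟩
      obtain ⟨q, h1, h2⟩ := freq_gt_transfer
        (fun n => birkhoffAverage ℝ T f (n + 2) x) _ _ _ tendsto_coef1 (tendsto_coef3 (f x))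
        (fun n => by positivity) (fun n => birkhoffAverage_shift T f n x) a hx1
      exact ⟨q, h1, (frequently_add_iff
        (fun n => (q : ℝ) < birkhoffAverage ℝ T f n x) 2).1 h2⟩
    · intro hx
      have hx1 : ∃ q : ℚ, a < (q : ℝ) ∧ ∃ᶠ n in atTop,
          (q : ℝ) < birkhoffAverage ℝ T f (n + 2) x := by
        obtain ⟨q, h1, h2⟩ := hx
        exact ⟨q, h1, (frequently_add_iff
          (fun n => (q : ℝ) < birkhoffAverage ℝ T f n x) 2).2 h2⟩
      obtain ⟨q, h1, h2⟩ := freq_gt_transfer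
        (fun n => birkhoffAverage ℝ T f (n + 1) (T x)) _ _ _ tendsto_coef2 (tendsto_coef4 (-f x))
        (fun n => by positivity) (fun n => birkhoffAverage_shift' T f n x) a hx1
      exact ⟨q, h1, (frequently_add_iff
        (fun n => (q : ℝ) < birkhoffAverage ℝ T f n (T x)) 1).1 h2⟩
  -- measure estimates
  have hge : ∀ (s : Set X), MeasurableSet s → T ⁻¹' s = s → ∀ b, s ⊆ EG b →
      b * (μ.restrict s).real Set.univ ≤ ∫ x in s, f x ∂μ := by
    intro s hs hinv b hsub
    have hTr : MeasurePreserving T (μ.restrict s) (μ.restrict s) := by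
      have := hT.restrict_preimage hs
      rwa [hinv] at this
    have hmem : ∀ᵐ x ∂(μ.restrict s), x ∈ s := ae_restrict_mem hs
    refine maximal_ergodic_ge (μ := μ.restrict s) hTr hf hfi.restrict (b := b) ?_
    filter_upwards [hmem] with x hx
    obtain ⟨q, hq, hfreq⟩ := hsub hx
    obtain ⟨n, hn, hn2⟩ := (hfreq.and_eventually (eventually_ne_atTop 0)).exists
    exact ⟨n, hq.trans hn, hn2⟩
  have hle : ∀ (s : Set X), MeasurableSet s → T ⁻¹' s = s → ∀ a, s ⊆ EL a →
      ∫ x in s, f x ∂μ ≤ a * (μ.restrict s).real Set.univ := by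
    intro s hs hinv a hsub
    have hTr : MeasurePreserving T (μ.restrict s) (μ.restrict s) := by
      have := hT.restrict_preimage hs
      rwa [hinv] at this
    have hmem : ∀ᵐ x ∂(μ.restrict s), x ∈ s := ae_restrict_mem hs
    refine maximal_ergodic_le (μ := μ.restrict s) hTr hf hfi.restrict (a := a) ?_
    filter_upwards [hmem] with x hx
    obtain ⟨q, hq, hfreq⟩ := hsub hx
    obtain ⟨n, hn, hn2⟩ := (hfreq.and_eventually (eventually_ne_atTop 0)).exists
    exact ⟨n, hn.trans hq, hn2⟩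
  -- no upcrossings
  have hE0 : ∀ a b, a < b → μ (EL a ∩ EG b) = 0 := by
    intro a b hab
    have hs : MeasurableSet (EL a ∩ EG b) := (hELm a).inter (hEGm b)
    have hinv : T ⁻¹' (EL a ∩ EG b) = EL a ∩ EG b := by
      rw [Set.preimage_inter, hELinv, hEGinv]
    have h1 := hge _ hs hinv b Set.inter_subset_right
    have h2 := hle _ hs hinv a Set.inter_subset_left
    have h3 : (μ.restrict (EL a ∩ EG b)).real Set.univ ≤ 0 := by
      have hnn : 0 ≤ (μ.restrict (EL a ∩ EG b)).real Set.univ := measureReal_nonneg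
      nlinarith
    have h4 : (μ.restrict (EL a ∩ EG b)).real Set.univ = 0 := le_antisymm h3 measureReal_nonneg
    rw [measureReal_def, Measure.restrict_apply_univ, ENNReal.toReal_eq_zero_iff] at h4
    exact h4.resolve_right (measure_ne_top _ _)
  have hall : ∀ᵐ x ∂μ, ∀ a b : ℚ, a < b → x ∉ EL a ∩ EG b := by
    rw [ae_all_iff]; intro a
    rw [ae_all_iff]; intro b
    by_cases hab : a < b
    · have : ∀ᵐ x ∂μ, x ∉ EL a ∩ EG b :=
        measure_eq_zero_iff_ae_notMem.1 (hE0 a b (by exact_mod_cast hab))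
      filter_upwards [this] with x hx _ using hx
    · filter_upwards with x h using absurd h hab
  -- boundedness above
  have hI : ∀ (s : Set X), |∫ x in s, f x ∂μ| ≤ ∫ x, |f x| ∂μ := by
    intro s
    calc |∫ x in s, f x ∂μ| ≤ ∫ x in s, |f x| ∂μ := abs_integral_le_integral_abs
      _ ≤ ∫ x, |f x| ∂μ := setIntegral_le_integral hfi.abs (Eventually.of_forall fun x => abs_nonneg _)
  have hup : ∀ᵐ x ∂μ, ∃ m : ℕ, x ∉ EG m := by
    have h0 : μ (⋂ m : ℕ, EG m) = 0 := by
      set s := ⋂ m : ℕ, EG m with hsdef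
      have hs : MeasurableSet s := MeasurableSet.iInter fun m : ℕ => hEGm m
      have hinv : T ⁻¹' s = s := by
        rw [hsdef, Set.preimage_iInter]
        exact Set.iInter_congr fun m => hEGinv m
      have h1 : ∀ m : ℕ, (m : ℝ) * (μ.restrict s).real Set.univ ≤ ∫ x, |f x| ∂μ := fun m =>
        (hge s hs hinv m (Set.iInter_subset _ m)).trans ((le_abs_self _).trans (hI s))
      by_contra hne
      have hpos : 0 < (μ.restrict s).real Set.univ := by
        rw [measureReal_def, Measure.restrict_apply_univ]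
        exact ENNReal.toReal_pos hne (measure_ne_top _ _)
      obtain ⟨m, hm⟩ := exists_nat_gt ((∫ x, |f x| ∂μ) / (μ.restrict s).real Set.univ)
      rw [div_lt_iff₀ hpos] at hm
      exact absurd (h1 m) (not_le.2 hm)
    have := measure_eq_zero_iff_ae_notMem.1 h0
    filter_upwards [this] with x hx
    simpa using hx
  have hdown : ∀ᵐ x ∂μ, ∃ m : ℕ, x ∉ EL (-(m : ℝ)) := by
    have h0 : μ (⋂ m : ℕ, EL (-(m : ℝ))) = 0 := by
      set s := ⋂ m : ℕ, EL (-(m : ℝ)) with hsdef
      have hs : MeasurableSet s := MeasurableSet.iInter fun m : ℕ => hELm _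
      have hinv : T ⁻¹' s = s := by
        rw [hsdef, Set.preimage_iInter]
        exact Set.iInter_congr fun m => hELinv _
      have h1 : ∀ m : ℕ, (m : ℝ) * (μ.restrict s).real Set.univ ≤ ∫ x, |f x| ∂μ := fun m => by
        have h2 := hle s hs hinv (-(m : ℝ)) (Set.iInter_subset _ m)
        have h3 := (neg_abs_le (∫ x in s, f x ∂μ))
        have h4 := hI s
        linarith
      by_contra hne
      have hpos : 0 < (μ.restrict s).real Set.univ := by
        rw [measureReal_def, Measure.restrict_apply_univ]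
        exact ENNReal.toReal_pos hne (measure_ne_top _ _)
      obtain ⟨m, hm⟩ := exists_nat_gt ((∫ x, |f x| ∂μ) / (μ.restrict s).real Set.univ)
      rw [div_lt_iff₀ hpos] at hm
      exact absurd (h1 m) (not_le.2 hm)
    have := measure_eq_zero_iff_ae_notMem.1 h0
    filter_upwards [this] with x hx
    simpa using hx
  filter_upwards [hall, hup, hdown] with x hx hxu hxd
  refine tendsto_of_no_upcrossings (s := Set.range ((↑) : ℚ → ℝ)) Rat.denseRange_cast ?_ ?_ ?_
  · rintro _ ⟨a, rfl⟩ _ ⟨b, rfl⟩ hab ⟨h1, h2⟩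
    have hab' : (a : ℚ) < b := by exact_mod_cast hab
    -- choose rationals strictly between
    obtain ⟨c, hc1, hc2⟩ := exists_between hab'
    obtain ⟨d, hd1, hd2⟩ := exists_between hc2
    refine hx c d hd1 ⟨⟨a, by exact_mod_cast hc1, h1⟩, ⟨b, by exact_mod_cast hd2, h2⟩⟩
  · obtain ⟨m, hm⟩ := hxu
    refine ⟨(m : ℝ) + 1, ?_⟩
    rw [eventually_map]
    by_contra hcon
    rw [not_eventually] at hcon
    apply hm
    refine ⟨(m : ℚ) + 1, by push_cast; linarith, hcon.mono fun n hn => ?_⟩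
    push_cast
    exact not_le.1 hn
  · obtain ⟨m, hm⟩ := hxd
    refine ⟨-(m : ℝ) - 1, ?_⟩
    rw [eventually_map]
    by_contra hcon
    rw [not_eventually] at hcon
    apply hm
    refine ⟨-(m : ℚ) - 1, by push_cast; linarith, hcon.mono fun n hn => ?_⟩
    push_cast
    exact not_le.1 hn

/-- Birkhoff's theorem for an ergodic map and a bounded function -/
theorem birkhoff_ergodic [IsProbabilityMeasure μ] {T : X → X} (hT : Ergodic T μ) {f : X → ℝ}
    (hf : Measurable f) {C : ℝ} (hb : ∀ x, |f x| ≤ C) :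
    ∀ᵐ x ∂μ, Tendsto (fun n : ℕ => (n : ℝ)⁻¹ * ∑ k ∈ Finset.range n, f (T^[k] x)) atTop
      (𝓝 (∫ x, f x ∂μ)) := by
  have hfi : Integrable f μ := Integrable.of_bound hf.aestronglyMeasurable C
    (ae_of_all _ fun x => by rw [Real.norm_eq_abs]; exact hb x)
  have hA : ∀ n : ℕ, Measurable (fun x => (n : ℝ)⁻¹ * ∑ k ∈ Finset.range n, f (T^[k] x)) := fun n =>
    (Finset.measurable_fun_sum _ fun k _ => hf.comp (hT.measurable.iterate k)).const_mul _
  have h1 : ∀ᵐ x ∂μ, ∃ l, Tendsto (fun n : ℕ => (n : ℝ)⁻¹ * ∑ k ∈ Finset.range n, f (T^[k] x))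
      atTop (𝓝 l) := birkhoff_real hT.toMeasurePreserving hf hfi
  obtain ⟨L, hLm, hL⟩ := measurable_limit_of_tendsto_metrizable_ae
    (fun n => (hA n).aemeasurable) h1
  have hC : 0 ≤ C := by
    obtain ⟨x, -⟩ := h1.exists
    exact (abs_nonneg _).trans (hb x)
  have hinv : L ∘ T =ᵐ[μ] L := by
    filter_upwards [hL, hT.quasiMeasurePreserving.ae hL] with x hx hx2
    have h2 : Tendsto (fun n => birkhoffAverage ℝ T f n (T x) - birkhoffAverage ℝ T f n x)
        atTop (𝓝 0) := by
      refine tendsto_birkhoffAverage_apply_sub_birkhoffAverage' ℝ ?_ T x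
      refine (Metric.isBounded_iff_subset_closedBall 0).2 ⟨C, ?_⟩
      rintro _ ⟨y, rfl⟩
      rw [Metric.mem_closedBall, dist_zero_right, Real.norm_eq_abs]
      exact hb y
    have h3 : Tendsto (fun n => birkhoffAverage ℝ T f n (T x) - birkhoffAverage ℝ T f n x)
        atTop (𝓝 (L (T x) - L x)) := Tendsto.sub hx2 hx
    have h4 := tendsto_nhds_unique h3 h2
    exact sub_eq_zero.1 h4
  obtain ⟨c, hc⟩ := hT.ae_eq_const_of_ae_eq_comp_ae hLm.aestronglyMeasurable hinv
  have hlim : ∀ᵐ x ∂μ, Tendsto (fun n : ℕ => (n : ℝ)⁻¹ * ∑ k ∈ Finset.range n, f (T^[k] x))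
      atTop (𝓝 c) := by
    filter_upwards [hL, hc] with x hx hcx
    have h5 : L x = c := hcx
    rwa [h5] at hx
  have hbd : ∀ (n : ℕ) (x : X), |(n : ℝ)⁻¹ * ∑ k ∈ Finset.range n, f (T^[k] x)| ≤ C := by
    intro n x
    rw [abs_mul, abs_of_nonneg (by positivity)]
    rcases Nat.eq_zero_or_pos n with h0 | h0
    · subst h0
      simpa using hC
    · have hn : (0 : ℝ) < n := by exact_mod_cast h0
      rw [inv_mul_le_iff₀ hn]
      calc |∑ k ∈ Finset.range n, f (T^[k] x)| ≤ ∑ k ∈ Finset.range n, |f (T^[k] x)| :=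
            Finset.abs_sum_le_sum_abs _ _
        _ ≤ ∑ _k ∈ Finset.range n, C := Finset.sum_le_sum fun k _ => hb _
        _ = n * C := by rw [Finset.sum_const, Finset.card_range, nsmul_eq_mul]
  have hint : Tendsto (fun n : ℕ => ∫ x, (n : ℝ)⁻¹ * ∑ k ∈ Finset.range n, f (T^[k] x) ∂μ) atTop
      (𝓝 (∫ _x, c ∂μ)) := by
    refine tendsto_integral_of_dominated_convergence (fun _ => C) ?_ (integrable_const _) ?_ hlim
    · exact fun n => (hA n).aestronglyMeasurable
    · exact fun n => ae_of_all _ fun x => by rw [Real.norm_eq_abs]; exact hbd n x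
  have hval : ∀ n : ℕ, n ≠ 0 →
      ∫ x, (n : ℝ)⁻¹ * ∑ k ∈ Finset.range n, f (T^[k] x) ∂μ = ∫ x, f x ∂μ := by
    intro n hn
    have hk : ∀ k, ∫ x, f (T^[k] x) ∂μ = ∫ x, f x ∂μ := by
      intro k
      have hm := hT.toMeasurePreserving.iterate k
      conv_rhs => rw [← hm.map_eq]
      exact (integral_map hm.measurable.aemeasurable hf.aestronglyMeasurable).symm
    rw [integral_const_mul, integral_finset_sum]
    · simp only [hk, Finset.sum_const, Finset.card_range, nsmul_eq_mul]
      rw [← mul_assoc, inv_mul_cancel₀ (by exact_mod_cast hn), one_mul]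
    · intro k _
      exact (hT.toMeasurePreserving.iterate k).integrable_comp_of_integrable hfi
  have hc2 : c = ∫ x, f x ∂μ := by
    have h6 : Tendsto (fun n : ℕ => ∫ x, (n : ℝ)⁻¹ * ∑ k ∈ Finset.range n, f (T^[k] x) ∂μ) atTop
        (𝓝 (∫ x, f x ∂μ)) := by
      refine tendsto_const_nhds.congr' ?_
      filter_upwards [eventually_ne_atTop 0] with n hn
      exact (hval n hn).symm
    have h7 := tendsto_nhds_unique hint h6
    simpa using h7
  rwa [hc2] at hlim

end Vale.Agent.P099.R2.H278
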