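import Vale.Agent.P099.R2.H278.Pt

set_option linter.all false

open MeasureTheory Set Filter Topology

namespace Vale.Agent.P099.R2.H278

open Vale.Agent.P099 Vale.Agent.P099T

variable {N : ℕ}

/-- Irrational tables: for almost every centre, all arcs equidistribute in the mean. -/
theorem centre_table (T : PolygonalTable N) (hT : T.IsIrrational) {Φ : ℝ → ℂ × ℂ → ℂ × ℂ}
    (hΦ : T.IsBilliardFlow Φ) {τ : ℝ} (hτ : τ ≠ 0) {A : Set (ℂ × ℂ)} (hA : MeasurableSet A) :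
    ∀ᵐ x ∂(ProbabilityTheory.cond volume T.Q), ∀ I : Set ℂ, MeasurableSet I →
      Tendsto (fun n : ℕ => (n : ℝ)⁻¹ * ∑ k ∈ Finset.range n,
        (nu.real (I ∩ {θ | Φ (k * τ) (x, θ) ∈ A}) - nu.real I * T.mu.real A) ^ 2)
        atTop (𝓝 0) := by
  obtain ⟨Θ, hΘ, hb, hu⟩ := exists_good_table_flow T
  have hS : Ergodic (Θ τ) T.mu := H184Abs.ergodic_of_zero_one (hΘ.mp τ) fun B hB =>
    (table_maps T hT hb hτ).1 B hB.1 hB.2
  have hS2 : Ergodic (fun z : (ℂ × ℂ) × (ℂ × ℂ) => (Θ τ z.1, Θ τ z.2)) (T.mu.prod T.mu) :=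
    H184Abs.ergodic_of_zero_one ((hΘ.mp τ).prod (hΘ.mp τ)) fun B hB =>
      (table_maps T hT hb hτ).2.1 B hB.1 hB.2
  have h0 : ∫ p, obs T Θ A 0 p ∂T.mu = 0 := by
    have h1 := obs_set (T := T) (B := univ) hΘ.meas hA 0
    rw [Measure.restrict_univ, inter_univ, Measure.real, (hΘ.mp 0).measure_preimage
      hA.nullMeasurableSet] at h1
    rw [h1]
    simp [Measure.real]
  have hE : ∀ ε > 0, ∃ δ > 0, ∀ s, |s| < δ →
      ∫ p, |obs T Θ A 0 p - obs T Θ A 0 (Θ s p)| ∂T.mu ≤ ε := by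
    intro ε hε
    obtain ⟨δ, hδ, h⟩ := small_E hΘ hb hA hε
    exact ⟨δ, hδ, fun s hs => h s hs 0⟩
  have h1 := centre_avg hΘ hb hS hS2 (obs_meas hΘ.meas hA 0) (obs_le 0) h0 hE
  have hit : ∀ k : ℕ, ∀ᵐ p ∂T.mu, Θ (k * τ) p = (Θ τ)^[k] p :=
    H184Abs.iterate_ae (μ := T.mu) ⟨hΘ.meas, hΘ.mp, hΘ.add, hΘ.zero⟩ τ
  have h2 : ∀ᵐ p ∂T.mu, ∀ k : ℕ, Φ (k * τ) p = Θ (k * τ) p ∧
      Θ 0 ((Θ τ)^[k] p) = Θ (k * τ) p := by
    rw [ae_all_iff]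
    intro k
    filter_upwards [hu Φ hΦ (k * τ), hit k,
      ((hΘ.mp τ).iterate k).quasiMeasurePreserving.ae hΘ.zero] with p k1 k2 k3
    exact ⟨k1, by rw [k3, k2]⟩
  have h3 : ∀ᵐ x ∂(pos T), ∀ᵐ θ ∂nu, ∀ k : ℕ, Φ (k * τ) (x, θ) = Θ (k * τ) (x, θ) ∧
      Θ 0 ((Θ τ)^[k] (x, θ)) = Θ (k * τ) (x, θ) := Measure.ae_ae_of_ae_prod h2
  filter_upwards [h1, h3] with x hx hx2 I hI
  refine (hx I hI).congr fun n => ?_
  congr 1
  refine Finset.sum_congr rfl fun k _ => ?_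
  congr 1
  have e1 : ∫ θ in I, obs T Θ A 0 ((Θ τ)^[k] (x, θ)) ∂nu =
      ∫ θ in I, obs T Θ A (k * τ) (x, θ) ∂nu := by
    refine integral_congr_ae (ae_restrict_of_ae ?_)
    filter_upwards [hx2] with θ hθ
    simp only [obs]
    rw [(hθ k).2]
  rw [e1, obs_arc hΘ.meas hA (k * τ) I x]
  congr 1
  have e2 : nu (I ∩ {θ | Φ (k * τ) (x, θ) ∈ A}) = nu (I ∩ {θ | Θ (k * τ) (x, θ) ∈ A}) := by
    refine measure_congr ?_
    filter_upwards [hx2] with θ hθ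
    refine propext ⟨fun hh => ⟨hh.1, ?_⟩, fun hh => ⟨hh.1, ?_⟩⟩
    · have := hh.2
      simp only [mem_setOf_eq] at this ⊢
      rwa [← (hθ k).1]
    · have := hh.2
      simp only [mem_setOf_eq] at this ⊢
      rwa [(hθ k).1]
  simp only [Measure.real, e2]

end Vale.Agent.P099.R2.H278
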