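import Vale.Agent.P099.R2.H278.Straight
import Mathlib.MeasureTheory.Function.ContinuousMapDense

set_option linter.all false

open MeasureTheory Set Filter Topology

namespace Vale.Agent.P099.R2.H278

open Vale.Agent.P099 Vale.Agent.P099T

/-- `L¹` continuity of a measure preserving family at time zero -/
theorem cont_l1 {X : Type} [TopologicalSpace X] [NormalSpace X] [MeasurableSpace X] [BorelSpace X]
    {μ : Measure X} [IsFiniteMeasure μ] [μ.WeaklyRegular] {Θ : ℝ → X → X}
    (hm : ∀ t, MeasurePreserving (Θ t) μ μ)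
    (hc : ∀ᵐ p ∂μ, Tendsto (fun s => Θ s p) (𝓝 0) (𝓝 p)) {f : X → ℝ} (hf : Integrable f μ) :
    Tendsto (fun s => ∫ p, |f (Θ s p) - f p| ∂μ) (𝓝 0) (𝓝 0) := by
  rw [Metric.tendsto_nhds]
  intro ε hε
  obtain ⟨g, hg, hgi⟩ := hf.exists_boundedContinuous_integral_sub_le (ε := ε / 4) (by linarith)
  have hfi : ∀ s, Integrable (fun p => f (Θ s p)) μ := fun s => (hm s).integrable_comp_of_integrable hf
  have hgi2 : ∀ s, Integrable (fun p => g (Θ s p)) μ := fun s =>
    (hm s).integrable_comp_of_integrable hgi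
  have h1 : Tendsto (fun s => ∫ p, |g (Θ s p) - g p| ∂μ) (𝓝 0) (𝓝 (∫ _p, (0 : ℝ) ∂μ)) := by
    refine tendsto_integral_filter_of_dominated_convergence (fun _ => 2 * ‖g‖) ?_ ?_ ?_ ?_
    · exact Eventually.of_forall fun s => ((hgi2 s).sub hgi).abs.aestronglyMeasurable
    · refine Eventually.of_forall fun s => ae_of_all _ fun p => ?_
      rw [Real.norm_eq_abs, abs_abs]
      have h2 := g.norm_coe_le_norm (Θ s p)
      have h3 := g.norm_coe_le_norm p
      rw [Real.norm_eq_abs] at h2 h3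
      calc |g (Θ s p) - g p| ≤ |g (Θ s p)| + |g p| := abs_sub _ _
        _ ≤ 2 * ‖g‖ := by linarith
    · exact integrable_const _
    · filter_upwards [hc] with p hp
      have h2 : Tendsto (fun s => g (Θ s p)) (𝓝 0) (𝓝 (g p)) := (g.continuous.tendsto p).comp hp
      have h3 := (h2.sub_const (g p)).abs
      rwa [sub_self, abs_zero] at h3
  rw [integral_zero] at h1
  filter_upwards [(tendsto_order.1 h1).2 (ε / 2) (by linarith)] with s hs
  rw [Real.dist_eq, sub_zero, abs_of_nonneg (integral_nonneg fun _ => abs_nonneg _)]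
  have e1 : Integrable (fun p => |f (Θ s p) - g (Θ s p)|) μ := ((hfi s).sub (hgi2 s)).abs
  have e2 : Integrable (fun p => |g (Θ s p) - g p|) μ := ((hgi2 s).sub hgi).abs
  have e3 : Integrable (fun p => |f p - g p|) μ := (hf.sub hgi).abs
  have h4 : ∫ p, |f (Θ s p) - g (Θ s p)| ∂μ ≤ ε / 4 := by
    have h5 : ∫ p, |f (Θ s p) - g (Θ s p)| ∂μ = ∫ p, |f p - g p| ∂μ := by
      have h6 := integral_map (μ := μ) (φ := Θ s) (hm s).measurable.aemeasurable
        (f := fun p => |f p - g p|) (by rw [(hm s).map_eq]; exact e3.aestronglyMeasurable)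
      rw [(hm s).map_eq] at h6
      exact h6.symm
    rw [h5]
    exact hg
  calc ∫ p, |f (Θ s p) - f p| ∂μ
      ≤ ∫ p, (|f (Θ s p) - g (Θ s p)| + |g (Θ s p) - g p| + |f p - g p|) ∂μ := by
        refine integral_mono ((hfi s).sub hf).abs ((e1.add e2).add e3) fun p => ?_
        have h5 : f (Θ s p) - f p = (f (Θ s p) - g (Θ s p)) + (g (Θ s p) - g p) - (f p - g p) := by
          ring
        rw [h5]
        exact (abs_sub _ _).trans (add_le_add_left (abs_add_le _ _) _)
    _ = ∫ p, |f (Θ s p) - g (Θ s p)| ∂μ + ∫ p, |g (Θ s p) - g p| ∂μ + ∫ p, |f p - g p| ∂μ := by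
        rw [← integral_add e1 e2]
        exact integral_add (e1.add e2) e3
    _ < ε := by
        have : ∫ p, |f p - g p| ∂μ ≤ ε / 4 := hg
        linarith

variable {N : ℕ} (T : PolygonalTable N)

instance prob_cond : IsProbabilityMeasure (ProbabilityTheory.cond volume T.Q) :=
  ProbabilityTheory.cond_isProbabilityMeasure_of_finite T.volume_Q_pos.ne' T.volume_Q_lt_top.ne

instance prob_mu : IsProbabilityMeasure T.mu := by
  unfold PolygonalTable.mu
  infer_instance

lemma ae_cond : ∀ᵐ x ∂(ProbabilityTheory.cond volume T.Q), x ∈ T.Q := by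
  rw [ProbabilityTheory.cond]
  refine Measure.ae_smul_measure ?_ _
  exact ae_restrict_mem T.isOpen.measurableSet

lemma ae_Q : ∀ᵐ p ∂T.mu, p.1 ∈ T.Q := by
  have h : MeasurePreserving Prod.fst T.mu (ProbabilityTheory.cond volume T.Q) := by
    unfold PolygonalTable.mu
    exact measurePreserving_fst
  exact h.quasiMeasurePreserving.ae (ae_cond T)

lemma ae_unit : ∀ᵐ p ∂T.mu, ‖p.2‖ = 1 := by
  have h : MeasurePreserving Prod.snd T.mu nu := by
    unfold PolygonalTable.mu
    exact measurePreserving_snd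
  exact h.quasiMeasurePreserving.ae ae_norm

/-- the flow is continuous at time zero -/
lemma tendsto_flow {Θ : ℝ → ℂ × ℂ → ℂ × ℂ} (hb : T.IsBilliardFlow Θ) :
    ∀ᵐ p ∂T.mu, Tendsto (fun s => Θ s p) (𝓝 0) (𝓝 p) := by
  filter_upwards [hb, ae_Q T] with p hp hQ
  obtain ⟨h0, h1⟩ := hp
  rcases h1 0 with ⟨-, h2⟩ | ⟨i, u, h2, -⟩
  · simp only [h0, sub_zero] at h2
    have h3 : Tendsto (fun s : ℝ => (p.1 + s • p.2, p.2)) (𝓝 0) (𝓝 p) := by
      have h4 : Continuous fun s : ℝ => (p.1 + s • p.2, p.2) := by fun_prop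
      have h5 := h4.tendsto 0
      simpa using h5
    exact h3.congr' (h2.mono fun s hs => hs.symm)
  · simp only [h0] at h2
    exact absurd hQ (side_notMem T i h2)

/-- straight motion near the centre -/
lemma flow_straight {Θ : ℝ → ℂ × ℂ → ℂ × ℂ} (hb : T.IsBilliardFlow Θ) (δ : ℝ) :
    ∀ᵐ p ∂T.mu, p.1 ∈ inner T δ → ∀ s ∈ Icc (0 : ℝ) δ, Θ s p = (p.1 + s • p.2, p.2) := by
  filter_upwards [hb, ae_unit T] with p hp hu hin s hs
  obtain ⟨h0, h1⟩ := hp
  refine straight T h1 (x := p.1) (u := p.2) h0 (δ := δ) (fun r hr => ?_) hs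
  refine inner_add T hin ?_
  rw [norm_smul, hu, mul_one, Real.norm_eq_abs, abs_of_nonneg hr.1]
  exact hr.2

end Vale.Agent.P099.R2.H278
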