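import Vale.Agent.P099.H184.PT.Maps
import Mathlib.MeasureTheory.Measure.Haar.Disintegration

set_option linter.all false

open MeasureTheory Set Filter Topology

namespace Vale.Agent.P099.R2.H278

open Vale.Agent.P099

/-- move the first point along `u.1`, the second along `u.2` -/
noncomputable def lin (u : ℂ × ℂ) : ℝ × ℝ × ℂ →ₗ[ℝ] ℂ × ℂ where
  toFun v := (v.2.2 + v.1 • u.1, v.2.2 + v.2.1 • u.2)
  map_add' v w := by
    ext <;> simp <;> ring
  map_smul' c v := by
    ext <;> simp <;> ring

lemma lin_surj {u : ℂ × ℂ} (hu : (starRingEnd ℂ u.1 * u.2).im ≠ 0) :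
    Function.Surjective (lin u) := by
  obtain ⟨a, b⟩ := u
  simp only at hu
  rintro ⟨y, y'⟩
  set D := (starRingEnd ℂ a * b).im with hD
  set z := y - y' with hz
  set s : ℝ := -(starRingEnd ℂ b * z).im / D with hs
  set s' : ℝ := -(starRingEnd ℂ a * z).im / D with hs'
  have key : s • a - s' • b = z := by
    have h1 : D • (s • a - s' • b) = D • z := by
      rw [smul_sub, smul_smul, smul_smul, hs, hs', mul_div_cancel₀ _ hu, mul_div_cancel₀ _ hu, hD]
      apply Complex.ext
      · simp
        ring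
      · simp
        ring
    exact smul_right_injective ℂ hu h1
  refine ⟨(s, s', y - s • a), ?_⟩
  show ((y - s • a) + s • a, (y - s • a) + s' • b) = (y, y')
  refine Prod.ext ?_ ?_
  · simp
  · show (y - s • a) + s' • b = y'
    have : y - y' = s • a - s' • b := key.symm
    linear_combination this

lemma ae_indep : ∀ᵐ u ∂(nu.prod nu), (starRingEnd ℂ u.1 * u.2).im ≠ 0 := by
  have hm : MeasurableSet {u : ℂ × ℂ | (starRingEnd ℂ u.1 * u.2).im ≠ 0} := by
    have : Measurable fun u : ℂ × ℂ => (starRingEnd ℂ u.1 * u.2).im := by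
      refine Complex.measurable_im.comp ?_
      exact ((Complex.continuous_conj.measurable.comp measurable_fst).mul measurable_snd)
    exact (measurableSet_eq_fun this measurable_const).compl
  rw [Measure.ae_prod_iff_ae_ae hm]
  filter_upwards [ae_norm] with a ha
  have h1 : ∀ᵐ u ∂nu, u ≠ a := by
    rw [ae_iff]; simpa only [ne_eq, Decidable.not_not, ofPred_eq_eq_singleton] using
      WM4.nu_singleton a
  have h2 : ∀ᵐ u ∂nu, u ≠ -a := by
    rw [ae_iff]; simpa only [ne_eq, Decidable.not_not, ofPred_eq_eq_singleton] using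
      WM4.nu_singleton (-a)
  filter_upwards [ae_norm, h1, h2] with b hb hb1 hb2 h0
  have haa : a * (starRingEnd ℂ) a = 1 := by
    rw [Complex.mul_conj, Complex.normSq_eq_norm_sq, ha]; simp
  have hn : ‖(starRingEnd ℂ) a * b‖ = 1 := by
    rw [norm_mul, RCLike.norm_conj, ha, hb, one_mul]
  have hre : ((starRingEnd ℂ) a * b) = (((starRingEnd ℂ) a * b).re : ℂ) := by
    apply Complex.ext
    · simp
    · rw [h0]; simp
  have hre2 : ((starRingEnd ℂ) a * b).re = 1 ∨ ((starRingEnd ℂ) a * b).re = -1 := by
    rw [hre, Complex.norm_real, Real.norm_eq_abs] at hn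
    exact eq_or_eq_neg_of_abs_eq hn
  have hb3 : b = a * ((starRingEnd ℂ) a * b) := by
    rw [← mul_assoc, haa, one_mul]
  rcases hre2 with h | h
  · apply hb1
    rw [hb3, hre, h]
    simp
  · apply hb2
    rw [hb3, hre, h]
    simp

/-- rearrangement of coordinates -/
lemma mp_rearr {A B C D : Type} [MeasurableSpace A] [MeasurableSpace B] [MeasurableSpace C]
    [MeasurableSpace D] (a : Measure A) (b : Measure B) (c : Measure C) (d : Measure D)
    [SFinite a] [SFinite b] [SFinite c] [SFinite d] :
    MeasurePreserving (fun z : (A × B) × (C × D) => ((z.2.1, z.1.1), (z.2.2, z.1.2)))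
      ((a.prod b).prod (c.prod d)) ((c.prod a).prod (d.prod b)) := by
  have h1 := measurePreserving_prodAssoc a b (c.prod d)
  have h2 : MeasurePreserving (Prod.map id (MeasurableEquiv.prodAssoc.symm : B × (C × D) ≃ᵐ (B × C) × D))
      (a.prod (b.prod (c.prod d))) (a.prod ((b.prod c).prod d)) :=
    (MeasurePreserving.id a).prod ((measurePreserving_prodAssoc b c d).symm _)
  have h3 : MeasurePreserving (Prod.map id (Prod.map Prod.swap id) : A × ((B × C) × D) → A × ((C × B) × D))
      (a.prod ((b.prod c).prod d)) (a.prod ((c.prod b).prod d)) :=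
    (MeasurePreserving.id a).prod (Measure.measurePreserving_swap.prod (MeasurePreserving.id d))
  have h4 : MeasurePreserving (Prod.map id (MeasurableEquiv.prodAssoc : (C × B) × D ≃ᵐ C × (B × D)))
      (a.prod ((c.prod b).prod d)) (a.prod (c.prod (b.prod d))) :=
    (MeasurePreserving.id a).prod (measurePreserving_prodAssoc c b d)
  have h5 := (measurePreserving_prodAssoc a c (b.prod d)).symm
  have h6 : MeasurePreserving (Prod.map Prod.swap Prod.swap : (A × C) × (B × D) → (C × A) × (D × B))
      ((a.prod c).prod (b.prod d)) ((c.prod a).prod (d.prod b)) :=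
    Measure.measurePreserving_swap.prod Measure.measurePreserving_swap
  exact h6.comp (h5.comp (h4.comp (h3.comp (h2.comp h1))))

/-- the fan map -/
noncomputable def fan (z : (ℂ × ℂ) × (ℝ × ℝ × ℂ)) : (ℂ × ℂ) × (ℂ × ℂ) :=
  ((z.2.2.2 + z.2.1 • z.1.1, z.1.1), (z.2.2.2 + z.2.2.1 • z.1.2, z.1.2))

lemma measurable_fan : Measurable fan := by
  unfold fan
  fun_prop

instance : (volume : Measure (ℝ × ℝ × ℂ)).IsAddHaarMeasure := by
  have h : ((volume : Measure ℝ).prod (volume : Measure ℂ)).IsAddHaarMeasure := inferInstance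
  exact Measure.prod.instIsAddHaarMeasure _ _

instance : ((volume : Measure ℂ).prod (volume : Measure ℂ)).IsAddHaarMeasure :=
  inferInstance

/-- The fan map is absolutely continuous. -/
theorem fan_null {N : Set ((ℂ × ℂ) × (ℂ × ℂ))}
    (hN : (((volume : Measure ℂ).prod nu).prod ((volume : Measure ℂ).prod nu)) N = 0) :
    ((nu.prod nu).prod (volume : Measure (ℝ × ℝ × ℂ))) (fan ⁻¹' N) = 0 := by
  obtain ⟨M, hNM, hM, hM0⟩ := exists_measurable_superset_of_null hN
  refine measure_mono_null (preimage_mono hNM) ?_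
  have h1 := (mp_rearr nu nu (volume : Measure ℂ) (volume : Measure ℂ)).measure_preimage
    hM.nullMeasurableSet
  rw [hM0] at h1
  rw [Measure.measure_prod_null (measurable_fan hM)]
  have hR : Measurable (fun z : (ℂ × ℂ) × (ℂ × ℂ) => ((z.2.1, z.1.1), (z.2.2, z.1.2))) := by
    fun_prop
  rw [Measure.measure_prod_null (hR hM)] at h1
  filter_upwards [h1, ae_indep] with u hu hu2
  have h3 : MeasurableSet (Prod.mk u ⁻¹' ((fun z : (ℂ × ℂ) × (ℂ × ℂ) =>
      ((z.2.1, z.1.1), (z.2.2, z.1.2))) ⁻¹' M)) := measurable_prodMk_left (hR hM)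
  have h4 := (ae_comp_linearMap_mem_iff (L := lin u) (volume : Measure (ℝ × ℝ × ℂ))
    ((volume : Measure ℂ).prod (volume : Measure ℂ)) (lin_surj hu2) h3.compl).2 (by
      rw [ae_iff]
      simp only [mem_compl_iff, not_not]
      exact hu)
  rw [ae_iff] at h4
  simp only [mem_compl_iff, not_not] at h4
  exact h4

end Vale.Agent.P099.R2.H278
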