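import Vale.Agent.P099.R2.H278.Abs
import Vale.Agent.P099.R2.H278.Fan
import Vale.Agent.P099.R2.H278.Cont

set_option linter.all false

open MeasureTheory Set Filter Topology

namespace Vale.Agent.P099.R2.H278

open Vale.Agent.P099 Vale.Agent.P099T

variable {N : ℕ} (T : PolygonalTable N)

/-- uniform position -/
noncomputable abbrev pos : Measure ℂ := ProbabilityTheory.cond volume T.Q

/-- uniform time in `(0, δ]` -/
noncomputable def lam (δ : ℝ) : Measure ℝ := ProbabilityTheory.cond volume (Ioc 0 δ)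

lemma prob_lam {δ : ℝ} (hδ : 0 < δ) : IsProbabilityMeasure (lam δ) := by
  unfold lam
  refine ProbabilityTheory.cond_isProbabilityMeasure_of_finite ?_ ?_
  · rw [Real.volume_Ioc, sub_zero]
    exact (ENNReal.ofReal_pos.2 hδ).ne'
  · rw [Real.volume_Ioc]
    exact ENNReal.ofReal_ne_top

lemma lam_ae (δ : ℝ) : ∀ᵐ s ∂(lam δ), s ∈ Ioc 0 δ := by
  unfold lam
  rw [ProbabilityTheory.cond]
  refine Measure.ae_smul_measure ?_ _
  exact ae_restrict_mem measurableSet_Ioc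

lemma lam_ac (δ : ℝ) : lam δ ≪ volume := by
  unfold lam
  exact ProbabilityTheory.cond_absolutelyContinuous

/-- two directions, two times, one position -/
noncomputable def kap (δ : ℝ) : Measure ((ℂ × ℂ) × (ℝ × ℝ × ℂ)) :=
  (nu.prod nu).prod ((lam δ).prod ((lam δ).prod (pos T)))

variable {T}

lemma mp0 {δ : ℝ} (hδ : 0 < δ) :
    MeasurePreserving (fun z : (ℂ × ℂ) × (ℝ × ℝ × ℂ) => (z.2.2.2, z.1)) (kap T δ)
      ((pos T).prod (nu.prod nu)) := by
  have := prob_lam hδ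
  have h1 : MeasurePreserving (Prod.map id (Prod.snd ∘ Prod.snd) :
      (ℂ × ℂ) × (ℝ × ℝ × ℂ) → (ℂ × ℂ) × ℂ) (kap T δ) ((nu.prod nu).prod (pos T)) :=
    (MeasurePreserving.id _).prod (measurePreserving_snd.comp measurePreserving_snd)
  exact Measure.measurePreserving_swap.comp h1

lemma mp_aux (δ : ℝ) [IsProbabilityMeasure (lam δ)] :
    MeasurePreserving (fun z : ℂ × (ℝ × ℂ) => (z.2.1, (z.2.2, z.1)))
      (nu.prod ((lam δ).prod (pos T))) ((lam δ).prod T.mu) := by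
  have h2 : MeasurePreserving (Prod.swap : ℂ × (ℝ × ℂ) → (ℝ × ℂ) × ℂ)
      (nu.prod ((lam δ).prod (pos T))) (((lam δ).prod (pos T)).prod nu) :=
    Measure.measurePreserving_swap
  exact (measurePreserving_prodAssoc (lam δ) (pos T) nu).comp h2

lemma mp1 {δ : ℝ} (hδ : 0 < δ) :
    MeasurePreserving (fun z : (ℂ × ℂ) × (ℝ × ℝ × ℂ) => (z.2.1, (z.2.2.2, z.1.1))) (kap T δ)
      ((lam δ).prod T.mu) := by
  have := prob_lam hδ
  have h1 : MeasurePreserving (Prod.map Prod.fst (Prod.map id Prod.snd) :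
      (ℂ × ℂ) × (ℝ × ℝ × ℂ) → ℂ × (ℝ × ℂ)) (kap T δ) (nu.prod ((lam δ).prod (pos T))) :=
    measurePreserving_fst.prod ((MeasurePreserving.id _).prod measurePreserving_snd)
  exact (mp_aux δ).comp h1

lemma mp2 {δ : ℝ} (hδ : 0 < δ) :
    MeasurePreserving (fun z : (ℂ × ℂ) × (ℝ × ℝ × ℂ) => (z.2.2.1, (z.2.2.2, z.1.2))) (kap T δ)
      ((lam δ).prod T.mu) := by
  have := prob_lam hδ
  have h1 : MeasurePreserving (Prod.map Prod.snd Prod.snd :
      (ℂ × ℂ) × (ℝ × ℝ × ℂ) → ℂ × (ℝ × ℂ)) (kap T δ) (nu.prod ((lam δ).prod (pos T))) :=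
    measurePreserving_snd.prod measurePreserving_snd
  exact (mp_aux δ).comp h1

lemma kap_prob {δ : ℝ} (hδ : 0 < δ) : IsProbabilityMeasure (kap T δ) := by
  have := prob_lam hδ
  unfold kap
  infer_instance

lemma kap_ac {δ : ℝ} (hδ : 0 < δ) :
    kap T δ ≪ (nu.prod nu).prod (volume : Measure (ℝ × ℝ × ℂ)) := by
  have := prob_lam hδ
  unfold kap
  refine Measure.AbsolutelyContinuous.rfl.prod ?_
  exact (lam_ac δ).prod ((lam_ac δ).prod ProbabilityTheory.cond_absolutelyContinuous)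

/-- the set of pairs -/
def pairs (T : PolygonalTable N) (δ : ℝ) (I : Set ℂ) : Set ((ℂ × ℂ) × (ℝ × ℝ × ℂ)) :=
  {z | z.1.1 ∈ I ∧ z.1.2 ∈ I ∧ z.2.2.2 ∈ inner T δ}

lemma measurable_pairs {δ : ℝ} {I : Set ℂ} (hI : MeasurableSet I) :
    MeasurableSet (pairs T δ I) := by
  refine (measurable_fst.comp measurable_fst hI).inter ((measurable_snd.comp measurable_fst hI).inter ?_)
  exact (measurable_snd.comp (measurable_snd.comp measurable_snd)) (measurable_inner T δ)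

lemma in_Q {δ : ℝ} (hδ : 0 < δ) {I : Set ℂ} :
    ∀ᵐ z ∂(kap T δ), z ∈ pairs T δ I → (fan z).1.1 ∈ T.Q ∧ (fan z).2.1 ∈ T.Q := by
  have := prob_lam hδ
  have h1 : ∀ᵐ w ∂((lam δ).prod T.mu), w.1 ∈ Ioc 0 δ :=
    measurePreserving_fst.quasiMeasurePreserving.ae (lam_ae δ)
  have h2 : ∀ᵐ w ∂((lam δ).prod T.mu), ‖w.2.2‖ = 1 :=
    (measurePreserving_snd (μ := lam δ) (ν := T.mu)).quasiMeasurePreserving.ae (ae_unit T)
  have h3 := (mp1 (T := T) hδ).quasiMeasurePreserving.ae (h1.and h2)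
  have h4 := (mp2 (T := T) hδ).quasiMeasurePreserving.ae (h1.and h2)
  filter_upwards [h3, h4] with z hz hz2 hp
  constructor
  · refine inner_add T hp.2.2 ?_
    rw [norm_smul, hz.2, mul_one, Real.norm_eq_abs, abs_of_pos hz.1.1]
    exact hz.1.2
  · refine inner_add T hp.2.2 ?_
    rw [norm_smul, hz2.2, mul_one, Real.norm_eq_abs, abs_of_pos hz2.1.1]
    exact hz2.1.2

/-- the measure on pairs of phase points -/
noncomputable def rho (T : PolygonalTable N) (δ : ℝ) (I : Set ℂ) :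
    Measure ((ℂ × ℂ) × (ℂ × ℂ)) := ((kap T δ).restrict (pairs T δ I)).map fan

lemma rho_fin {δ : ℝ} (hδ : 0 < δ) (I : Set ℂ) : IsFiniteMeasure (rho T δ I) := by
  have := kap_prob (T := T) hδ
  unfold rho
  infer_instance

theorem rho_ac {δ : ℝ} (hδ : 0 < δ) {I : Set ℂ} (hI : MeasurableSet I) :
    rho T δ I ≪ T.mu.prod T.mu := by
  refine Measure.AbsolutelyContinuous.mk fun M hM h0 => ?_
  unfold rho
  rw [Measure.map_apply measurable_fan hM, Measure.restrict_apply (measurable_fan hM)]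
  have hv : (volume T.Q)⁻¹ ≠ 0 := ENNReal.inv_ne_zero.2 T.volume_Q_lt_top.ne
  set Z : Set ((ℂ × ℂ) × (ℂ × ℂ)) := {w | w.1.1 ∈ T.Q ∧ w.2.1 ∈ T.Q} with hZ
  have hZm : MeasurableSet Z :=
    (measurable_fst.comp measurable_fst T.isOpen.measurableSet).inter
      (measurable_fst.comp measurable_snd T.isOpen.measurableSet)
  have h1 : (((volume : Measure ℂ).prod nu).prod ((volume : Measure ℂ).prod nu)) (M ∩ Z) = 0 := by
    rw [T.mu_eq, Measure.prod_smul_left, Measure.prod_smul_right, Measure.smul_apply,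
      Measure.smul_apply, smul_eq_mul, smul_eq_mul] at h0
    have h2 := (mul_eq_zero.1 ((mul_eq_zero.1 h0).resolve_left hv)).resolve_left hv
    have h3 : (volume.restrict T.Q).prod nu = ((volume : Measure ℂ).prod nu).restrict (T.Q ×ˢ univ) := by
      rw [← Measure.prod_restrict, Measure.restrict_univ]
    rw [h3, Measure.prod_restrict, Measure.restrict_apply hM] at h2
    have h4 : M ∩ Z = M ∩ (T.Q ×ˢ univ) ×ˢ (T.Q ×ˢ univ) := by
      ext w
      simp [hZ]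
    rw [h4]
    exact h2
  have h2 : (kap T δ) (fan ⁻¹' (M ∩ Z)) = 0 := kap_ac hδ (fan_null h1)
  have h3 : (kap T δ) {z | ¬(z ∈ pairs T δ I → (fan z).1.1 ∈ T.Q ∧ (fan z).2.1 ∈ T.Q)} = 0 :=
    ae_iff.1 (in_Q hδ)
  refine measure_mono_null ?_ (measure_union_null h2 h3)
  rintro z ⟨hz1, hz2⟩
  by_cases h : (fan z).1.1 ∈ T.Q ∧ (fan z).2.1 ∈ T.Q
  · exact Or.inl ⟨hz1, h⟩
  · exact Or.inr fun h' => h (h' hz2)

end Vale.Agent.P099.R2.H278
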