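import Vale.Agent.P099.MathlibUsed
import Mathlib.MeasureTheory.Measure.Lebesgue.Basic
import Mathlib.MeasureTheory.Integral.IntervalIntegral.Basic
import Mathlib.Analysis.SpecialFunctions.Exp
import Mathlib.Topology.Algebra.InfiniteSum.Module

set_option linter.all false

open MeasureTheory Set Filter Topology

namespace Vale.Agent.P099.R2.H278

/-- from discrete averages to continuous averages -/
theorem cont_avg {F : ℝ → ℝ} (hF : Continuous F)
    (huc : ∀ ε > 0, ∃ δ > 0, ∀ s, |s| < δ → ∀ t, |F t - F (t + s)| ≤ ε)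
    (hd : ∀ τ : ℝ, τ ≠ 0 → Tendsto (fun n : ℕ => (n : ℝ)⁻¹ * ∑ k ∈ Finset.range n, |F (k * τ)|)
      atTop (𝓝 0)) :
    Tendsto (fun R : ℝ => R⁻¹ * ∫ t in (0 : ℝ)..R, |F t|) atTop (𝓝 0) := by
  rw [Metric.tendsto_atTop]
  intro ε hε
  obtain ⟨δ, hδ, h1⟩ := huc (ε / 8) (by linarith)
  set τ := δ / 2 with hτ
  have hτ0 : 0 < τ := by positivity
  obtain ⟨N0, hN0⟩ := eventually_atTop.1 ((tendsto_order.1 (hd τ hτ0.ne')).2 (ε / 8) (by linarith))
  refine ⟨max τ (N0 * τ), fun R hR => ?_⟩
  have hRτ : τ ≤ R := (le_max_left _ _).trans hR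
  have hRN : N0 * τ ≤ R := (le_max_right _ _).trans hR
  have hR0 : 0 < R := hτ0.trans_le hRτ
  set n := ⌈R / τ⌉₊ with hn
  have hn1 : R ≤ n * τ := by
    have := Nat.le_ceil (R / τ)
    rwa [div_le_iff₀ hτ0] at this
  have hn2 : n * τ ≤ 2 * R := by
    have h2 := (Nat.ceil_lt_add_one (div_nonneg hR0.le hτ0.le)).le
    have h3 : (n : ℝ) * τ ≤ (R / τ + 1) * τ := mul_le_mul_of_nonneg_right h2 hτ0.le
    rw [add_mul, div_mul_cancel₀ _ hτ0.ne', one_mul] at h3
    linarith
  have hn0 : 0 < n := Nat.ceil_pos.2 (div_pos hR0 hτ0)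
  have hnN : N0 ≤ n := by
    have h3 : (N0 : ℝ) ≤ R / τ := by rwa [le_div_iff₀ hτ0]
    exact_mod_cast h3.trans (Nat.le_ceil _)
  have h4 := hN0 n hnN
  have hcont : Continuous fun t => |F t| := hF.abs
  have hii : ∀ a b : ℝ, IntervalIntegrable (fun t => |F t|) volume a b := fun a b =>
    hcont.intervalIntegrable a b
  have h5 : ∫ t in (0 : ℝ)..R, |F t| ≤ ∫ t in (0 : ℝ)..(n * τ), |F t| :=
    intervalIntegral.integral_mono_interval le_rfl hR0.le hn1
      (ae_of_all _ fun t => abs_nonneg _) (hii _ _)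
  have h6 : ∫ t in (0 : ℝ)..(n * τ), |F t| =
      ∑ k ∈ Finset.range n, ∫ t in ((k : ℝ) * τ)..(((k + 1 : ℕ) : ℝ) * τ), |F t| := by
    have := intervalIntegral.sum_integral_adjacent_intervals (f := fun t => |F t|) (μ := volume)
      (a := fun k : ℕ => (k : ℝ) * τ) (n := n) (fun k _ => hii _ _)
    rw [this]
    simp
  have h7 : ∀ k ∈ Finset.range n, ∫ t in ((k : ℝ) * τ)..(((k + 1 : ℕ) : ℝ) * τ), |F t| ≤
      τ * (|F (k * τ)| + ε / 8) := by
    intro k _
    have h8 : ((k + 1 : ℕ) : ℝ) * τ = k * τ + τ := by push_cast; ring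
    rw [h8]
    calc ∫ t in ((k : ℝ) * τ)..(k * τ + τ), |F t|
        ≤ ∫ t in ((k : ℝ) * τ)..(k * τ + τ), (|F (k * τ)| + ε / 8) := by
          refine intervalIntegral.integral_mono_on (by linarith) (hii _ _)
            (continuous_const.intervalIntegrable _ _) fun t ht => ?_
          have h9 := h1 (t - k * τ) (by
            rw [abs_of_nonneg (by linarith [ht.1])]
            linarith [ht.2]) (k * τ)
          rw [show (k : ℝ) * τ + (t - k * τ) = t by ring] at h9
          have h10 : |F t| ≤ |F (k * τ)| + |F (k * τ) - F t| := by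
            have := abs_sub_abs_le_abs_sub (F t) (F (k * τ))
            rw [abs_sub_comm] at this
            linarith
          linarith
      _ = τ * (|F (k * τ)| + ε / 8) := by
          rw [intervalIntegral.integral_const, smul_eq_mul]
          ring
  have h11 : ∫ t in (0 : ℝ)..R, |F t| ≤ τ * (∑ k ∈ Finset.range n, |F (k * τ)| + n * (ε / 8)) := by
    refine h5.trans ?_
    rw [h6]
    refine (Finset.sum_le_sum h7).trans (le_of_eq ?_)
    rw [← Finset.mul_sum, Finset.sum_add_distrib, Finset.sum_const, Finset.card_range,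
      nsmul_eq_mul]
  have hnr : (0 : ℝ) < n := by exact_mod_cast hn0
  have h12 : ∑ k ∈ Finset.range n, |F (k * τ)| ≤ n * (ε / 8) := by
    rw [inv_mul_lt_iff₀ hnr] at h4
    exact h4.le
  have h13 : ∫ t in (0 : ℝ)..R, |F t| ≤ R * (ε / 2) := by
    calc ∫ t in (0 : ℝ)..R, |F t| ≤ τ * (∑ k ∈ Finset.range n, |F (k * τ)| + n * (ε / 8)) := h11
      _ ≤ τ * (n * (ε / 8) + n * (ε / 8)) := by gcongr
      _ = (n * τ) * (ε / 4) := by ring
      _ ≤ (2 * R) * (ε / 4) := by gcongr
      _ = R * (ε / 2) := by ring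
  have h14 : 0 ≤ ∫ t in (0 : ℝ)..R, |F t| :=
    intervalIntegral.integral_nonneg hR0.le fun t _ => abs_nonneg _
  rw [Real.dist_eq, sub_zero, abs_of_nonneg (mul_nonneg (inv_nonneg.2 hR0.le) h14),
    inv_mul_lt_iff₀ hR0]
  nlinarith

/-- Koopman and von Neumann, continuous time -/
theorem kvn {c : ℝ → ℝ} (hc : Continuous c) (h0 : ∀ t, 0 ≤ c t) (h1 : ∀ t, c t ≤ 1)
    (h : Tendsto (fun R : ℝ => R⁻¹ * ∫ t in (0 : ℝ)..R, c t) atTop (𝓝 0)) :
    ∃ J : Set ℝ, MeasurableSet J ∧
      Tendsto (fun R : ℝ => volume.real (J ∩ Ioc 0 R) / R) atTop (𝓝 1) ∧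
      Tendsto c (atTop ⊓ 𝓟 J) (𝓝 0) := by
  set a : ℝ → ℝ := fun R => R⁻¹ * ∫ t in (0 : ℝ)..R, c t with ha
  have hii : ∀ a b : ℝ, IntervalIntegrable c volume a b := fun a b => hc.intervalIntegrable a b
  have ha1 : ∀ R, 0 < R → a R ≤ 1 := by
    intro R hR
    rw [ha]
    simp only
    rw [inv_mul_le_iff₀ hR, mul_one]
    calc ∫ t in (0 : ℝ)..R, c t ≤ ∫ t in (0 : ℝ)..R, (1 : ℝ) :=
          intervalIntegral.integral_mono_on hR.le (hii _ _)
            (continuous_const.intervalIntegrable _ _) fun t _ => h1 t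
      _ = R := by simp
  -- an antitone positive majorant
  set s : ℝ → ℝ := fun t => sSup (a '' Ici (max t 1)) + Real.exp (-t) with hs
  have hbdd : ∀ t, BddAbove (a '' Ici (max t 1)) := by
    intro t
    refine ⟨1, ?_⟩
    rintro _ ⟨R, hR, rfl⟩
    exact ha1 R (lt_of_lt_of_le one_pos ((le_max_right t 1).trans hR))
  have hne : ∀ t, (a '' Ici (max t 1)).Nonempty := fun t => ⟨_, _, mem_Ici.2 le_rfl, rfl⟩
  have ha0 : ∀ R, 0 < R → 0 ≤ a R := fun R hR =>
    mul_nonneg (inv_nonneg.2 hR.le) (intervalIntegral.integral_nonneg hR.le fun t _ => h0 t)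
  have hsup0 : ∀ t, 0 ≤ sSup (a '' Ici (max t 1)) := by
    intro t
    obtain ⟨y, hy⟩ := hne t
    refine le_trans ?_ (le_csSup (hbdd t) hy)
    obtain ⟨R, hR, rfl⟩ := hy
    exact ha0 R (lt_of_lt_of_le one_pos ((le_max_right t 1).trans hR))
  have hspos : ∀ t, 0 < s t := fun t => add_pos_of_nonneg_of_pos (hsup0 t) (Real.exp_pos _)
  have hanti : Antitone s := by
    intro t t' htt
    refine add_le_add ?_ (Real.exp_le_exp.2 (by linarith))
    refine csSup_le_csSup (hbdd t) (hne t') (image_mono ?_)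
    exact Ici_subset_Ici.2 (max_le_max htt le_rfl)
  have hsa : ∀ R, 1 ≤ R → a R ≤ s R := by
    intro R hR
    have h2 : a R ≤ sSup (a '' Ici (max R 1)) :=
      le_csSup (hbdd R) ⟨R, mem_Ici.2 (max_le le_rfl hR), rfl⟩
    have := (Real.exp_pos (-R)).le
    simp only [hs]
    linarith
  have hs0 : Tendsto s atTop (𝓝 0) := by
    have e1 : Tendsto (fun t : ℝ => Real.exp (-t)) atTop (𝓝 0) := Real.tendsto_exp_neg_atTop_nhds_zero
    have e2 : Tendsto (fun t : ℝ => sSup (a '' Ici (max t 1))) atTop (𝓝 0) := by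
      rw [Metric.tendsto_atTop]
      intro ε hε
      obtain ⟨R0, hR0⟩ := eventually_atTop.1 ((tendsto_order.1 h).2 (ε / 2) (by linarith))
      refine ⟨R0, fun t ht => ?_⟩
      rw [Real.dist_eq, sub_zero, abs_of_nonneg (hsup0 t)]
      refine lt_of_le_of_lt (csSup_le (hne t) ?_) (half_lt_self hε)
      rintro _ ⟨R, hR, rfl⟩
      exact (hR0 R (ht.le.trans ((le_max_left t 1).trans hR))).le
    simpa using e2.add e1
  have hsm : Measurable s := hanti.measurable
  have hsq : Tendsto (fun t => Real.sqrt (s t)) atTop (𝓝 0) := by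
    have := (Real.continuous_sqrt.tendsto 0).comp hs0
    rwa [Real.sqrt_zero] at this
  set J : Set ℝ := {t | c t ≤ Real.sqrt (s t)} with hJ
  have hJm : MeasurableSet J := measurableSet_le hc.measurable hsm.sqrt
  refine ⟨J, hJm, ?_, ?_⟩
  · -- density
    have key : ∀ R, 1 ≤ R → volume.real (Ioc 0 R \ J) ≤ R * Real.sqrt (s R) := by
      intro R hR
      have hR0 : 0 < R := lt_of_lt_of_le one_pos hR
      have hq : 0 < Real.sqrt (s R) := Real.sqrt_pos.2 (hspos R)
      have hfin : volume (Ioc 0 R \ J) ≠ ⊤ :=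
        ne_top_of_le_ne_top (by rw [Real.volume_Ioc]; exact ENNReal.ofReal_ne_top)
          (measure_mono diff_subset)
      have e1 : ∫ t in Ioc 0 R \ J, Real.sqrt (s R) ≤ ∫ t in Ioc 0 R \ J, c t := by
        refine setIntegral_mono_on (integrableOn_const hfin) ?_
          (measurableSet_Ioc.diff hJm) fun t ht => ?_
        · exact ((hii 0 R).1).mono_set diff_subset
        · have h2 : ¬ c t ≤ Real.sqrt (s t) := ht.2
          have h3 : Real.sqrt (s R) ≤ Real.sqrt (s t) := Real.sqrt_le_sqrt (hanti ht.1.2)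
          linarith [not_le.1 h2]
      have e2 : ∫ t in Ioc 0 R \ J, c t ≤ ∫ t in Ioc 0 R, c t :=
        setIntegral_mono_set (hii 0 R).1 (ae_of_all _ fun t => h0 t)
          (ae_of_all _ fun t ht => ht.1)
      have e3 : ∫ t in Ioc 0 R, c t = R * a R := by
        rw [← intervalIntegral.integral_of_le hR0.le]
        simp only [ha]
        rw [← mul_assoc, mul_inv_cancel₀ hR0.ne', one_mul]
      have e4 : ∫ t in Ioc 0 R \ J, Real.sqrt (s R) = volume.real (Ioc 0 R \ J) * Real.sqrt (s R) := by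
        rw [setIntegral_const, smul_eq_mul]
      have e5 : volume.real (Ioc 0 R \ J) * Real.sqrt (s R) ≤
          (R * Real.sqrt (s R)) * Real.sqrt (s R) := by
        rw [← e4, mul_assoc, Real.mul_self_sqrt (hspos R).le]
        refine (e1.trans e2).trans ?_
        rw [e3]
        exact mul_le_mul_of_nonneg_left (hsa R hR) hR0.le
      exact le_of_mul_le_mul_right e5 hq
    have h5 : Tendsto (fun R : ℝ => 1 - Real.sqrt (s R)) atTop (𝓝 1) := by
      simpa using (tendsto_const_nhds (x := (1 : ℝ))).sub hsq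
    refine tendsto_of_tendsto_of_tendsto_of_le_of_le' h5 tendsto_const_nhds ?_ ?_
    · filter_upwards [eventually_ge_atTop 1] with R hR
      have hR0 : 0 < R := lt_of_lt_of_le one_pos hR
      have h6 : volume.real (J ∩ Ioc 0 R) + volume.real (Ioc 0 R \ J) = R := by
        rw [inter_comm, measureReal_inter_add_diff hJm (by
          rw [Real.volume_Ioc]; exact ENNReal.ofReal_ne_top), Measure.real, Real.volume_Ioc,
          sub_zero, ENNReal.toReal_ofReal hR0.le]
      rw [le_div_iff₀ hR0]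
      have := key R hR
      nlinarith
    · filter_upwards [eventually_ge_atTop 1] with R hR
      have hR0 : 0 < R := lt_of_lt_of_le one_pos hR
      rw [div_le_one hR0]
      calc volume.real (J ∩ Ioc 0 R) ≤ volume.real (Ioc 0 R) :=
            measureReal_mono inter_subset_right (by rw [Real.volume_Ioc]; exact ENNReal.ofReal_ne_top)
        _ = R := by
            rw [Measure.real, Real.volume_Ioc, sub_zero, ENNReal.toReal_ofReal hR0.le]
  · refine tendsto_of_tendsto_of_tendsto_of_le_of_le' tendsto_const_nhds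
      (hsq.mono_left inf_le_left) (Eventually.of_forall h0) ?_
    exact (mem_inf_of_right (mem_principal_self J))

/-- one set of times for countably many functions -/
theorem exists_density_one {F : ℕ → ℝ → ℝ} (hc : ∀ i, Continuous (F i)) (hb : ∀ i t, |F i t| ≤ 1)
    (h : ∀ i, Tendsto (fun R : ℝ => R⁻¹ * ∫ t in (0 : ℝ)..R, |F i t|) atTop (𝓝 0)) :
    ∃ J : Set ℝ, MeasurableSet J ∧
      Tendsto (fun R : ℝ => volume.real (J ∩ Ioc 0 R) / R) atTop (𝓝 1) ∧
      ∀ i, Tendsto (F i) (atTop ⊓ 𝓟 J) (𝓝 0) := by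
  set w : ℕ → ℝ := fun i => (1 / 2) ^ i * (1 / 2) with hw
  have hw0 : ∀ i, 0 < w i := fun i => by positivity
  have hws : HasSum w 1 := by
    have := hasSum_geometric_two.mul_right (1 / 2 : ℝ)
    simpa [hw] using this
  have hsum : ∀ t, Summable fun i => w i * |F i t| := fun t =>
    Summable.of_nonneg_of_le (fun i => mul_nonneg (hw0 i).le (abs_nonneg _))
      (fun i => mul_le_of_le_one_right (hw0 i).le (hb i t)) hws.summable
  set c : ℝ → ℝ := fun t => ∑' i, w i * |F i t| with hcd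
  have hcc : Continuous c := by
    refine continuous_tsum (fun i => continuous_const.mul (hc i).abs) hws.summable fun i t => ?_
    rw [Real.norm_eq_abs, abs_of_nonneg (mul_nonneg (hw0 i).le (abs_nonneg _))]
    exact mul_le_of_le_one_right (hw0 i).le (hb i t)
  have hc0 : ∀ t, 0 ≤ c t := fun t => tsum_nonneg fun i => mul_nonneg (hw0 i).le (abs_nonneg _)
  have hc1 : ∀ t, c t ≤ 1 := fun t => by
    rw [← hws.tsum_eq]
    exact (hsum t).tsum_le_tsum (fun i => mul_le_of_le_one_right (hw0 i).le (hb i t)) hws.summable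
  have hlim : Tendsto (fun R : ℝ => R⁻¹ * ∫ t in (0 : ℝ)..R, c t) atTop (𝓝 0) := by
    rw [Metric.tendsto_atTop]
    intro ε hε
    obtain ⟨k, hk⟩ := ((tendsto_order.1 (tendsto_sum_nat_add w)).2 (ε / 2) (by linarith)).exists
    have h2 : Tendsto (fun R : ℝ => ∑ i ∈ Finset.range k, (R⁻¹ * ∫ t in (0 : ℝ)..R, |F i t|)) atTop
        (𝓝 0) := by
      have := tendsto_finset_sum (Finset.range k) fun i _ => h i
      simpa using this
    obtain ⟨R0, hR0⟩ := eventually_atTop.1 ((tendsto_order.1 h2).2 (ε / 2) (by linarith))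
    refine ⟨max R0 1, fun R hR => ?_⟩
    have hRpos : 0 < R := lt_of_lt_of_le one_pos ((le_max_right _ _).trans hR)
    have h3 := hR0 R ((le_max_left _ _).trans hR)
    have h4 : 0 ≤ ∫ t in (0 : ℝ)..R, c t :=
      intervalIntegral.integral_nonneg hRpos.le fun t _ => hc0 t
    rw [Real.dist_eq, sub_zero, abs_of_nonneg (mul_nonneg (inv_nonneg.2 hRpos.le) h4)]
    have h5 : ∀ t, c t ≤ ∑ i ∈ Finset.range k, |F i t| + ∑' i, w (i + k) := by
      intro t
      rw [hcd]
      simp only
      rw [← (hsum t).sum_add_tsum_nat_add k]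
      refine add_le_add (Finset.sum_le_sum fun i _ => ?_) ?_
      · have hwi : w i ≤ 1 := by
          have h6 : ((1 : ℝ) / 2) ^ i ≤ 1 := pow_le_one₀ (by norm_num) (by norm_num)
          simp only [hw]
          linarith
        exact mul_le_of_le_one_left (abs_nonneg _) hwi
      · exact ((summable_nat_add_iff k).2 (hsum t)).tsum_le_tsum
          (fun i => mul_le_of_le_one_right (hw0 _).le (hb _ t))
          ((summable_nat_add_iff k).2 hws.summable)
    have hci : ∀ i, IntervalIntegrable (fun t => |F i t|) volume 0 R := fun i =>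
      (hc i).abs.intervalIntegrable _ _
    have h6 : ∫ t in (0 : ℝ)..R, c t ≤
        (∑ i ∈ Finset.range k, ∫ t in (0 : ℝ)..R, |F i t|) + R * ∑' i, w (i + k) := by
      calc ∫ t in (0 : ℝ)..R, c t
          ≤ ∫ t in (0 : ℝ)..R, (∑ i ∈ Finset.range k, |F i t| + ∑' i, w (i + k)) := by
            refine intervalIntegral.integral_mono_on hRpos.le (hcc.intervalIntegrable _ _) ?_
              fun t _ => h5 t
            refine Continuous.intervalIntegrable ?_ _ _
            exact (continuous_finset_sum _ fun i _ => (hc i).abs).add continuous_const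
        _ = (∑ i ∈ Finset.range k, ∫ t in (0 : ℝ)..R, |F i t|) + R * ∑' i, w (i + k) := by
            have j1 : IntervalIntegrable (fun t => ∑ i ∈ Finset.range k, |F i t|) volume 0 R :=
              (continuous_finset_sum _ fun i _ => (hc i).abs).intervalIntegrable _ _
            have j2 : IntervalIntegrable (fun _ : ℝ => ∑' i, w (i + k)) volume 0 R :=
              continuous_const.intervalIntegrable _ _
            rw [intervalIntegral.integral_add j1 j2,
              intervalIntegral.integral_finset_sum fun i _ => hci i,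
              intervalIntegral.integral_const, smul_eq_mul, sub_zero]
    rw [inv_mul_lt_iff₀ hRpos]
    rw [← Finset.mul_sum, inv_mul_lt_iff₀ hRpos] at h3
    nlinarith
  obtain ⟨J, hJm, hJ1, hJ2⟩ := kvn hcc hc0 hc1 hlim
  refine ⟨J, hJm, hJ1, fun i => ?_⟩
  rw [tendsto_zero_iff_abs_tendsto_zero]
  have h7 : Tendsto (fun t => (w i)⁻¹ * c t) (atTop ⊓ 𝓟 J) (𝓝 0) := by
    simpa using hJ2.const_mul (w i)⁻¹
  refine squeeze_zero (fun t => abs_nonneg _) (fun t => ?_) h7
  have h8 : w i * |F i t| ≤ c t :=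
    (hsum t).le_tsum i fun j _ => mul_nonneg (hw0 j).le (abs_nonneg _)
  show |F i t| ≤ (w i)⁻¹ * c t
  rw [inv_mul_eq_div, le_div_iff₀ (hw0 i)]
  linarith

end Vale.Agent.P099.R2.H278
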