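import Vale.Agent.P099.R2.H278.Main
import Vale.Agent.P099.R2.H278.Dens
import Mathlib.MeasureTheory.Measure.SeparableMeasure

set_option linter.all false

open MeasureTheory Set Filter Topology

namespace Vale.Agent.P099.R2.H278

open Vale.Agent.P099 Vale.Agent.P099T

variable {N : ℕ} {T : PolygonalTable N}

/-- The equivalence along every countably generated filter of times. -/
theorem circ_iff_filter (T : PolygonalTable N) {Φ : ℝ → ℂ × ℂ → ℂ × ℂ}
    (hΦ : T.IsBilliardFlow Φ) {A : Set (ℂ × ℂ)} (hA : MeasurableSet A) (l : Filter ℝ)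
    [l.IsCountablyGenerated] :
    (∀ B, MeasurableSet B →
      Tendsto (fun t => T.mu.real (Φ t ⁻¹' A ∩ B)) l (𝓝 (T.mu.real A * T.mu.real B))) ↔
    ∀ I : Set ℂ, MeasurableSet I → Tendsto (fun t => circ T Φ A I t) l (𝓝 0) := by
  have e1 : ∀ (B : Set (ℂ × ℂ)) (u : ℕ → ℝ),
      Tendsto (fun n => T.mu.real (Φ (u n) ⁻¹' A ∩ B)) atTop (𝓝 (T.mu.real A * T.mu.real B)) ↔
      Wt.one.Null fun n => T.mu.real (Φ (u n) ⁻¹' A ∩ B) - T.mu.real A * T.mu.real B := by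
    intro B u
    rw [Wt.null_one, tendsto_sub_nhds_zero_iff]
  constructor
  · intro h I hI
    refine tendsto_of_seq_tendsto fun u hu => ?_
    have h1 := (circ_iff Wt.one T hΦ hA u).1 (fun B hB => (e1 B u).1 ((h B hB).comp hu)) I hI
    exact Wt.null_one.1 h1
  · intro h B hB
    refine tendsto_of_seq_tendsto fun u hu => ?_
    exact (e1 B u).2 ((circ_iff Wt.one T hΦ hA u).2
      (fun I hI => Wt.null_one.2 ((h I hI).comp hu)) B hB)

/-- the correlation -/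
noncomputable def cor (T : PolygonalTable N) (Θ : ℝ → ℂ × ℂ → ℂ × ℂ) (A B : Set (ℂ × ℂ))
    (t : ℝ) : ℝ := T.mu.real (Θ t ⁻¹' A ∩ B) - T.mu.real A * T.mu.real B

lemma cor_le (Θ : ℝ → ℂ × ℂ → ℂ × ℂ) (A B : Set (ℂ × ℂ)) (t : ℝ) : |cor T Θ A B t| ≤ 1 := by
  unfold cor
  have h1 : T.mu.real (Θ t ⁻¹' A ∩ B) ≤ 1 := measureReal_le_one
  have h2 : 0 ≤ T.mu.real (Θ t ⁻¹' A ∩ B) := measureReal_nonneg
  have h3 : T.mu.real A * T.mu.real B ≤ 1 :=
    mul_le_one₀ measureReal_le_one measureReal_nonneg measureReal_le_one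
  have h4 : 0 ≤ T.mu.real A * T.mu.real B := mul_nonneg measureReal_nonneg measureReal_nonneg
  rw [abs_le]
  constructor <;> linarith

lemma cor_uc {Θ : ℝ → ℂ × ℂ → ℂ × ℂ} (hΘ : PFlow T.mu Θ) (hb : T.IsBilliardFlow Θ)
    {A : Set (ℂ × ℂ)} (hA : MeasurableSet A) (B : Set (ℂ × ℂ)) {ε : ℝ} (hε : 0 < ε) :
    ∃ δ > 0, ∀ s, |s| < δ → ∀ t, |cor T Θ A B t - cor T Θ A B (t + s)| ≤ ε := by
  obtain ⟨δ, hδ, h⟩ := small_E hΘ hb hA hε
  refine ⟨δ, hδ, fun s hs t => ?_⟩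
  have h1 := h s hs t
  have hi : ∀ r, Integrable (obs T Θ A r) T.mu := fun r =>
    int_of_bdd (obs_meas hΘ.meas hA r) (obs_le r)
  have h2 : ∀ᵐ p ∂T.mu, obs T Θ A t (Θ s p) = obs T Θ A (t + s) p := by
    filter_upwards [hΘ.add t s] with p hp
    simp only [obs]
    rw [hp]
  have h3 : ∫ p, |obs T Θ A t p - obs T Θ A (t + s) p| ∂T.mu ≤ ε := by
    refine le_trans (le_of_eq (integral_congr_ae ?_)) h1
    filter_upwards [h2] with p hp
    rw [hp]
  have h4 : ∀ r, cor T Θ A B r = ∫ p in B, obs T Θ A r p ∂T.mu := fun r =>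
    (obs_set hΘ.meas hA r).symm
  rw [h4 t, h4 (t + s), ← integral_sub (hi t).integrableOn (hi (t + s)).integrableOn]
  calc |∫ p in B, (obs T Θ A t p - obs T Θ A (t + s) p) ∂T.mu|
      ≤ ∫ p in B, |obs T Θ A t p - obs T Θ A (t + s) p| ∂T.mu := abs_integral_le_integral_abs
    _ ≤ ∫ p, |obs T Θ A t p - obs T Θ A (t + s) p| ∂T.mu :=
        setIntegral_le_integral ((hi t).sub (hi (t + s))).abs (ae_of_all _ fun p => abs_nonneg _)
    _ ≤ ε := h3

lemma cor_cont {Θ : ℝ → ℂ × ℂ → ℂ × ℂ} (hΘ : PFlow T.mu Θ) (hb : T.IsBilliardFlow Θ)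
    {A : Set (ℂ × ℂ)} (hA : MeasurableSet A) (B : Set (ℂ × ℂ)) : Continuous (cor T Θ A B) := by
  rw [Metric.continuous_iff]
  intro t ε hε
  obtain ⟨δ, hδ, h⟩ := cor_uc hΘ hb hA B (half_pos hε)
  refine ⟨δ, hδ, fun r hr => ?_⟩
  have h1 := h (r - t) (by rwa [← Real.dist_eq]) t
  rw [add_sub_cancel] at h1
  rw [dist_comm, Real.dist_eq]
  linarith

/-- change of the sets -/
lemma cor_approx {Θ : ℝ → ℂ × ℂ → ℂ × ℂ} (hΘ : ∀ t, MeasurePreserving (Θ t) T.mu T.mu)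
    {A A' B B' : Set (ℂ × ℂ)} (hA : MeasurableSet A) (hA' : MeasurableSet A')
    (hB : MeasurableSet B) (hB' : MeasurableSet B') (t : ℝ) :
    |cor T Θ A B t - cor T Θ A' B' t| ≤
      2 * T.mu.real (symmDiff A A') + 2 * T.mu.real (symmDiff B B') := by
  have hm : ∀ {S S' : Set (ℂ × ℂ)}, MeasurableSet S → MeasurableSet S' →
      |T.mu.real S - T.mu.real S'| ≤ T.mu.real (symmDiff S S') := by
    intro S S' hS hS'
    exact abs_measureReal_sub_le_measureReal_symmDiff hS.nullMeasurableSet hS'.nullMeasurableSet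
  have h1 : |T.mu.real (Θ t ⁻¹' A ∩ B) - T.mu.real (Θ t ⁻¹' A' ∩ B')| ≤
      T.mu.real (symmDiff A A') + T.mu.real (symmDiff B B') := by
    refine (hm (((hΘ t).measurable hA).inter hB) (((hΘ t).measurable hA').inter hB')).trans ?_
    have h2 : symmDiff (Θ t ⁻¹' A ∩ B) (Θ t ⁻¹' A' ∩ B') ⊆
        Θ t ⁻¹' (symmDiff A A') ∪ symmDiff B B' := by
      intro p hp
      simp only [mem_symmDiff, mem_inter_iff, mem_preimage, mem_union] at hp ⊢
      tauto
    refine (measureReal_mono h2).trans ((measureReal_union_le _ _).trans ?_)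
    refine add_le_add (le_of_eq ?_) le_rfl
    rw [Measure.real, (hΘ t).measure_preimage (hA.symmDiff hA').nullMeasurableSet, Measure.real]
  have h2 : |T.mu.real A * T.mu.real B - T.mu.real A' * T.mu.real B'| ≤
      T.mu.real (symmDiff A A') + T.mu.real (symmDiff B B') := by
    refine (abs_mul_sub_mul_le ?_ ?_).trans (add_le_add (hm hA hA') (hm hB hB'))
    · rw [abs_of_nonneg measureReal_nonneg]; exact measureReal_le_one
    · rw [abs_of_nonneg measureReal_nonneg]; exact measureReal_le_one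
  unfold cor
  have h3 : T.mu.real (Θ t ⁻¹' A ∩ B) - T.mu.real A * T.mu.real B -
      (T.mu.real (Θ t ⁻¹' A' ∩ B') - T.mu.real A' * T.mu.real B') =
      (T.mu.real (Θ t ⁻¹' A ∩ B) - T.mu.real (Θ t ⁻¹' A' ∩ B')) -
      (T.mu.real A * T.mu.real B - T.mu.real A' * T.mu.real B') := by ring
  rw [h3]
  refine (abs_sub _ _).trans ?_
  linarith

/-- Irrational tables: one set of times of density one for all sets. -/
theorem exists_times (T : PolygonalTable N) (hT : T.IsIrrational) :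
    ∃ J : Set ℝ, MeasurableSet J ∧
      Tendsto (fun R : ℝ => volume.real (J ∩ Ioc 0 R) / R) atTop (𝓝 1) ∧
      ∀ Φ : ℝ → ℂ × ℂ → ℂ × ℂ, T.IsBilliardFlow Φ → ∀ A B : Set (ℂ × ℂ), MeasurableSet A →
        MeasurableSet B → Tendsto (fun t => T.mu.real (Φ t ⁻¹' A ∩ B)) (atTop ⊓ 𝓟 J)
          (𝓝 (T.mu.real A * T.mu.real B)) := by
  obtain ⟨Θ, hΘ, hb, hu⟩ := exists_good_table_flow T
  obtain ⟨𝒜, hcount, hdense⟩ := exists_countable_measureDense T.mu
  obtain ⟨f, hf⟩ := hcount.exists_eq_range hdense.nonempty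
  have hfm : ∀ i, MeasurableSet (f i) := fun i => hdense.measurable _ (hf ▸ mem_range_self i)
  set F : ℕ → ℝ → ℝ := fun i => cor T Θ (f (Nat.unpair i).1) (f (Nat.unpair i).2) with hF
  have h1 : ∀ i, Tendsto (fun R : ℝ => R⁻¹ * ∫ t in (0 : ℝ)..R, |F i t|) atTop (𝓝 0) := by
    intro i
    refine cont_avg (cor_cont hΘ hb (hfm _) _) (fun ε hε => cor_uc hΘ hb (hfm _) _ hε) ?_
    intro τ hτ
    exact (table_maps T hT hb hτ).2.2.1 _ _ (hfm _) (hfm _)
  obtain ⟨J, hJm, hJ1, hJ2⟩ := exists_density_one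
    (fun i => cor_cont hΘ hb (hfm (Nat.unpair i).1) (f (Nat.unpair i).2))
    (fun i t => cor_le Θ _ _ t) h1
  refine ⟨J, hJm, hJ1, fun Φ hΦ A B hA hB => ?_⟩
  have hcor : Tendsto (fun t => cor T Θ A B t) (atTop ⊓ 𝓟 J) (𝓝 0) := by
    rw [Metric.tendsto_nhds]
    intro ε hε
    obtain ⟨A', hA', hAA⟩ := hdense.approx A hA (measure_ne_top _ _) (ε / 8) (by linarith)
    obtain ⟨B', hB', hBB⟩ := hdense.approx B hB (measure_ne_top _ _) (ε / 8) (by linarith)
    rw [hf] at hA' hB'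
    obtain ⟨i, rfl⟩ := hA'
    obtain ⟨j, rfl⟩ := hB'
    have h2 := hJ2 (Nat.pair i j)
    simp only [Nat.unpair_pair] at h2
    rw [Metric.tendsto_nhds] at h2
    filter_upwards [h2 (ε / 2) (by linarith)] with t ht
    rw [Real.dist_eq, sub_zero] at ht ⊢
    have h3 := cor_approx (T := T) hΘ.mp hA (hfm i) hB (hfm j) t
    have h4 : T.mu.real (symmDiff A (f i)) < ε / 8 :=
      (ENNReal.lt_ofReal_iff_toReal_lt (measure_ne_top _ _)).1 hAA
    have h5 : T.mu.real (symmDiff B (f j)) < ε / 8 :=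
      (ENNReal.lt_ofReal_iff_toReal_lt (measure_ne_top _ _)).1 hBB
    have h6 := abs_sub_abs_le_abs_sub (cor T Θ A B t) (cor T Θ (f i) (f j) t)
    linarith
  have h7 : Tendsto (fun t => T.mu.real (Θ t ⁻¹' A ∩ B)) (atTop ⊓ 𝓟 J)
      (𝓝 (T.mu.real A * T.mu.real B)) := by
    rw [← tendsto_sub_nhds_zero_iff]
    exact hcor
  refine h7.congr fun t => ?_
  exact (corr_congr (hu Φ hΦ t) A B).symm

end Vale.Agent.P099.R2.H278
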