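import Vale.Agent.P099.R2.H278.Core

set_option linter.all false

open MeasureTheory Set Filter Topology

namespace Vale.Agent.P099.R2.H278

open Vale.Agent.P099 Vale.Agent.P099T

variable {N : ℕ} {T : PolygonalTable N}

lemma int_of_bdd {X : Type} [MeasurableSpace X] {μ : Measure X} [IsFiniteMeasure μ] {f : X → ℝ}
    (hf : Measurable f) {C : ℝ} (h : ∀ x, |f x| ≤ C) : Integrable f μ :=
  Integrable.of_bound hf.aestronglyMeasurable C (ae_of_all _ fun x => by
    rw [Real.norm_eq_abs]; exact h x)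

lemma abs_mul_sub_mul_le {a b c d : ℝ} (hb : |b| ≤ 1) (hc : |c| ≤ 1) :
    |a * b - c * d| ≤ |a - c| + |b - d| := by
  have h : a * b - c * d = (a - c) * b + c * (b - d) := by ring
  rw [h]
  calc |(a - c) * b + c * (b - d)| ≤ |(a - c) * b| + |c * (b - d)| := abs_add_le _ _
    _ ≤ |a - c| + |b - d| := by
        rw [abs_mul, abs_mul]
        exact add_le_add (mul_le_of_le_one_right (abs_nonneg _) hb)
          (mul_le_of_le_one_left (abs_nonneg _) hc)

section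

variable {g : ℂ × ℂ → ℝ} (hg : Measurable g) (hgb : ∀ p, |g p| ≤ 1)

include hg hgb

lemma arc_le (I : Set ℂ) (x : ℂ) : |∫ θ in I, g (x, θ) ∂nu| ≤ 1 := by
  calc |∫ θ in I, g (x, θ) ∂nu| ≤ ∫ θ in I, |g (x, θ)| ∂nu := abs_integral_le_integral_abs
    _ ≤ ∫ θ in I, (1 : ℝ) ∂nu := by
        refine integral_mono_of_nonneg (ae_of_all _ fun x => abs_nonneg _) (integrable_const _)
          (ae_of_all _ fun x => hgb _)
    _ ≤ 1 := by
        rw [integral_const, smul_eq_mul, mul_one, Measure.real, Measure.restrict_apply_univ]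
        exact prob_le_one.trans_eq rfl |> fun h => ENNReal.toReal_mono ENNReal.one_ne_top h

lemma measurable_arc (I : Set ℂ) : StronglyMeasurable fun x => ∫ θ in I, g (x, θ) ∂nu :=
  hg.stronglyMeasurable.integral_prod_right'

/-- the collar -/
lemma collar (δ : ℝ) (I : Set ℂ) :
    |∫ x, (∫ θ in I, g (x, θ) ∂nu) ^ 2 ∂(pos T)| ≤
      (pos T).real (T.Q \ inner T δ) +
      |∫ x in inner T δ, (∫ θ in I, g (x, θ) ∂nu) ^ 2 ∂(pos T)| := by
  have hm : Measurable fun x => (∫ θ in I, g (x, θ) ∂nu) ^ 2 :=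
    (measurable_arc hg hgb I).measurable.pow_const 2
  have hb : ∀ x, |(∫ θ in I, g (x, θ) ∂nu) ^ 2| ≤ 1 := fun x => by
    rw [abs_pow]
    exact pow_le_one₀ (abs_nonneg _) (arc_le hg hgb I x)
  have hi : Integrable (fun x => (∫ θ in I, g (x, θ) ∂nu) ^ 2) (pos T) := int_of_bdd hm hb
  rw [← integral_add_compl (measurable_inner T δ) hi, add_comm]
  refine (abs_add_le _ _).trans (add_le_add_left ?_ _)
  calc |∫ x in (inner T δ)ᶜ, (∫ θ in I, g (x, θ) ∂nu) ^ 2 ∂(pos T)|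
      ≤ ∫ x in (inner T δ)ᶜ, |(∫ θ in I, g (x, θ) ∂nu) ^ 2| ∂(pos T) :=
        abs_integral_le_integral_abs
    _ ≤ ∫ x in (inner T δ)ᶜ, (1 : ℝ) ∂(pos T) := by
        refine integral_mono_of_nonneg (ae_of_all _ fun x => abs_nonneg _) (integrable_const _)
          (ae_of_all _ fun x => hb _)
    _ = (pos T).real (T.Q \ inner T δ) := by
        rw [integral_const, smul_eq_mul, mul_one, Measure.real, Measure.restrict_apply_univ,
          Measure.real]
        congr 1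
        refine measure_congr ?_
        filter_upwards [ae_cond T] with x hx
        refine propext ⟨fun h => ⟨hx, h⟩, fun h => h.2⟩

/-- the square as an integral over pairs -/
lemma square {δ : ℝ} (hδ : 0 < δ) {I : Set ℂ} (hI : MeasurableSet I) :
    ∫ x in inner T δ, (∫ θ in I, g (x, θ) ∂nu) ^ 2 ∂(pos T) =
      ∫ z in pairs T δ I, g (z.2.2.2, z.1.1) * g (z.2.2.2, z.1.2) ∂(kap T δ) := by
  set F : ℂ × (ℂ × ℂ) → ℝ := fun w => g (w.1, w.2.1) * g (w.1, w.2.2) with hF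
  have hFm : Measurable F := by
    refine Measurable.mul ?_ ?_
    · exact hg.comp (measurable_fst.prodMk (measurable_fst.comp measurable_snd))
    · exact hg.comp (measurable_fst.prodMk (measurable_snd.comp measurable_snd))
  have hFb : ∀ w, |F w| ≤ 1 := fun w => by
    rw [hF, abs_mul]
    exact mul_le_one₀ (hgb _) (abs_nonneg _) (hgb _)
  have hS : MeasurableSet ((inner T δ) ×ˢ (I ×ˢ I) : Set (ℂ × (ℂ × ℂ))) :=
    (measurable_inner T δ).prod (hI.prod hI)
  have h1 := setIntegral_map (μ := kap T δ) (g := fun z : (ℂ × ℂ) × (ℝ × ℝ × ℂ) => (z.2.2.2, z.1))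
    (f := F) hS hFm.aestronglyMeasurable (mp0 (T := T) hδ).measurable.aemeasurable
  rw [(mp0 (T := T) hδ).map_eq] at h1
  have h2 : (fun z : (ℂ × ℂ) × (ℝ × ℝ × ℂ) => (z.2.2.2, z.1)) ⁻¹' ((inner T δ) ×ˢ (I ×ˢ I)) =
      pairs T δ I := by
    ext z
    simp only [mem_preimage, mem_prod, pairs, mem_setOf_eq]
    tauto
  rw [h2] at h1
  rw [← h1, setIntegral_prod _ (int_of_bdd hFm hFb).integrableOn]
  refine setIntegral_congr_fun (measurable_inner T δ) fun x _ => ?_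
  simp only [hF]
  rw [setIntegral_prod_mul (μ := nu) (ν := nu) (fun θ => g (x, θ)) (fun θ => g (x, θ)) I I, sq]

/-- thickening the pairs -/
lemma thick {Θ : ℝ → ℂ × ℂ → ℂ × ℂ} (hb : T.IsBilliardFlow Θ)
    (hΘ : Measurable fun z : ℝ × (ℂ × ℂ) => Θ z.1 z.2) {δ : ℝ} (hδ : 0 < δ) {ε : ℝ}
    (hE : ∀ s ∈ Ioc 0 δ, ∫ p, |g p - g (Θ s p)| ∂T.mu ≤ ε) {I : Set ℂ} (hI : MeasurableSet I) :
    |∫ z in pairs T δ I, g (z.2.2.2, z.1.1) * g (z.2.2.2, z.1.2) ∂(kap T δ)| ≤
      2 * ε + |∫ w, g w.1 * g w.2 ∂(rho T δ I)| := by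
  have hpl := prob_lam hδ
  have hpk := kap_prob (T := T) hδ
  have hgg : Measurable fun w : (ℂ × ℂ) × (ℂ × ℂ) => g w.1 * g w.2 :=
    (hg.comp measurable_fst).mul (hg.comp measurable_snd)
  have h0 : ∫ w, g w.1 * g w.2 ∂(rho T δ I) =
      ∫ z in pairs T δ I, g (fan z).1 * g (fan z).2 ∂(kap T δ) := by
    unfold rho
    rw [integral_map measurable_fan.aemeasurable hgg.aestronglyMeasurable]
  rw [h0]
  set H : ℝ × (ℂ × ℂ) → ℝ := fun w => |g w.2 - g (Θ w.1 w.2)| with hH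
  have hHm : Measurable H := ((hg.comp measurable_snd).sub (hg.comp hΘ)).abs
  have hHb : ∀ w, |H w| ≤ 2 := fun w => by
    rw [hH, abs_abs]
    refine (abs_sub _ _).trans ?_
    have := hgb w.2
    have := hgb (Θ w.1 w.2)
    linarith
  have hHi : Integrable H ((lam δ).prod T.mu) := int_of_bdd hHm hHb
  have hHe : ∫ w, H w ∂((lam δ).prod T.mu) ≤ ε := by
    rw [integral_prod _ hHi]
    calc ∫ s, ∫ p, H (s, p) ∂T.mu ∂(lam δ) ≤ ∫ s, ε ∂(lam δ) := by
          refine integral_mono_ae hHi.integral_prod_left (integrable_const _) ?_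
          filter_upwards [lam_ae δ] with s hs
          exact hE s hs
      _ = ε := by simp
  have hH1 : ∫ z, H (z.2.1, (z.2.2.2, z.1.1)) ∂(kap T δ) = ∫ w, H w ∂((lam δ).prod T.mu) := by
    rw [← (mp1 (T := T) hδ).map_eq]
    exact (integral_map (mp1 (T := T) hδ).measurable.aemeasurable hHm.aestronglyMeasurable).symm
  have hH2 : ∫ z, H (z.2.2.1, (z.2.2.2, z.1.2)) ∂(kap T δ) = ∫ w, H w ∂((lam δ).prod T.mu) := by
    rw [← (mp2 (T := T) hδ).map_eq]
    exact (integral_map (mp2 (T := T) hδ).measurable.aemeasurable hHm.aestronglyMeasurable).symm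
  have hHi1 : Integrable (fun z => H (z.2.1, (z.2.2.2, z.1.1))) (kap T δ) :=
    (mp1 (T := T) hδ).integrable_comp_of_integrable hHi
  have hHi2 : Integrable (fun z => H (z.2.2.1, (z.2.2.2, z.1.2))) (kap T δ) :=
    (mp2 (T := T) hδ).integrable_comp_of_integrable hHi
  have hst : ∀ᵐ w ∂((lam δ).prod T.mu), w.2.1 ∈ inner T δ →
      Θ w.1 w.2 = (w.2.1 + w.1 • w.2.2, w.2.2) := by
    have h1 : ∀ᵐ w ∂((lam δ).prod T.mu), w.1 ∈ Ioc 0 δ :=
      measurePreserving_fst.quasiMeasurePreserving.ae (lam_ae δ)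
    have h2 := (measurePreserving_snd (μ := lam δ) (ν := T.mu)).quasiMeasurePreserving.ae
      (flow_straight T hb δ)
    filter_upwards [h1, h2] with w hw1 hw2 hw3
    exact hw2 hw3 w.1 ⟨hw1.1.le, hw1.2⟩
  have hst1 := (mp1 (T := T) hδ).quasiMeasurePreserving.ae hst
  have hst2 := (mp2 (T := T) hδ).quasiMeasurePreserving.ae hst
  have hd : Measurable fun z : (ℂ × ℂ) × (ℝ × ℝ × ℂ) => g (z.2.2.2, z.1.1) * g (z.2.2.2, z.1.2) := by
    refine Measurable.mul (hg.comp ?_) (hg.comp ?_) <;> fun_prop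
  have hdb : ∀ z : (ℂ × ℂ) × (ℝ × ℝ × ℂ), |g (z.2.2.2, z.1.1) * g (z.2.2.2, z.1.2)| ≤ 1 := by
    intro z
    rw [abs_mul]
    exact mul_le_one₀ (hgb _) (abs_nonneg _) (hgb _)
  have hf : Measurable fun z : (ℂ × ℂ) × (ℝ × ℝ × ℂ) => g (fan z).1 * g (fan z).2 :=
    hgg.comp measurable_fan
  have hfb : ∀ z : (ℂ × ℂ) × (ℝ × ℝ × ℂ), |g (fan z).1 * g (fan z).2| ≤ 1 := by
    intro z
    rw [abs_mul]
    exact mul_le_one₀ (hgb _) (abs_nonneg _) (hgb _)
  have i1 : Integrable (fun z : (ℂ × ℂ) × (ℝ × ℝ × ℂ) => g (z.2.2.2, z.1.1) * g (z.2.2.2, z.1.2))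
      ((kap T δ).restrict (pairs T δ I)) := int_of_bdd hd hdb
  have i2 : Integrable (fun z : (ℂ × ℂ) × (ℝ × ℝ × ℂ) => g (fan z).1 * g (fan z).2)
      ((kap T δ).restrict (pairs T δ I)) := int_of_bdd hf hfb
  have hmain : |∫ z in pairs T δ I, g (z.2.2.2, z.1.1) * g (z.2.2.2, z.1.2) ∂(kap T δ) -
      ∫ z in pairs T δ I, g (fan z).1 * g (fan z).2 ∂(kap T δ)| ≤ 2 * ε := by
    rw [← integral_sub i1 i2]
    calc |∫ z in pairs T δ I, (g (z.2.2.2, z.1.1) * g (z.2.2.2, z.1.2) -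
          g (fan z).1 * g (fan z).2) ∂(kap T δ)|
        ≤ ∫ z in pairs T δ I, |g (z.2.2.2, z.1.1) * g (z.2.2.2, z.1.2) -
          g (fan z).1 * g (fan z).2| ∂(kap T δ) := abs_integral_le_integral_abs
      _ ≤ ∫ z in pairs T δ I, (H (z.2.1, (z.2.2.2, z.1.1)) + H (z.2.2.1, (z.2.2.2, z.1.2)))
            ∂(kap T δ) := by
          refine integral_mono_ae (i1.sub i2).abs
            ((hHi1.add hHi2).mono_measure Measure.restrict_le_self) ?_
          filter_upwards [ae_restrict_mem (measurable_pairs hI), ae_restrict_of_ae hst1,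
            ae_restrict_of_ae hst2] with z hz hz1 hz2
          have e1 : (fan z).1 = Θ z.2.1 (z.2.2.2, z.1.1) := (hz1 hz.2.2).symm
          have e2 : (fan z).2 = Θ z.2.2.1 (z.2.2.2, z.1.2) := (hz2 hz.2.2).symm
          show |g (z.2.2.2, z.1.1) * g (z.2.2.2, z.1.2) - g (fan z).1 * g (fan z).2| ≤
            H (z.2.1, (z.2.2.2, z.1.1)) + H (z.2.2.1, (z.2.2.2, z.1.2))
          rw [e1, e2]
          exact abs_mul_sub_mul_le (hgb _) (hgb _)
      _ ≤ ∫ z, (H (z.2.1, (z.2.2.2, z.1.1)) + H (z.2.2.1, (z.2.2.2, z.1.2))) ∂(kap T δ) := by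
          refine setIntegral_le_integral (hHi1.add hHi2) (ae_of_all _ fun z => ?_)
          exact add_nonneg (abs_nonneg _) (abs_nonneg _)
      _ = ∫ z, H (z.2.1, (z.2.2.2, z.1.1)) ∂(kap T δ) +
            ∫ z, H (z.2.2.1, (z.2.2.2, z.1.2)) ∂(kap T δ) := integral_add hHi1 hHi2
      _ ≤ 2 * ε := by
          rw [hH1, hH2]
          linarith
  have h3 := abs_sub_abs_le_abs_sub
    (∫ z in pairs T δ I, g (z.2.2.2, z.1.1) * g (z.2.2.2, z.1.2) ∂(kap T δ))
    (∫ z in pairs T δ I, g (fan z).1 * g (fan z).2 ∂(kap T δ))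
  linarith

end

end Vale.Agent.P099.R2.H278
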