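import Vale.Agent.P099.R2.H278.Key

set_option linter.all false

open MeasureTheory Set Filter Topology

namespace Vale.Agent.P099.R2.H278

open Vale.Agent.P099 Vale.Agent.P099T

variable {N : ℕ} {T : PolygonalTable N} {W : Wt}

/-- mean square discrepancy of the circular arc with directions `I` and radius `t` -/
noncomputable def circ (T : PolygonalTable N) (Φ : ℝ → ℂ × ℂ → ℂ × ℂ) (A : Set (ℂ × ℂ))
    (I : Set ℂ) (t : ℝ) : ℝ :=
  ∫ x, (nu.real (I ∩ {θ | Φ t (x, θ) ∈ A}) - nu.real I * T.mu.real A) ^ 2 ∂(pos T)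

/-- the centred observable at time `t` -/
noncomputable def obs (T : PolygonalTable N) (Θ : ℝ → ℂ × ℂ → ℂ × ℂ) (A : Set (ℂ × ℂ)) (t : ℝ)
    (p : ℂ × ℂ) : ℝ := A.indicator (fun _ => (1 : ℝ)) (Θ t p) - T.mu.real A

section

variable {Θ : ℝ → ℂ × ℂ → ℂ × ℂ} {A : Set (ℂ × ℂ)}

lemma meas_at (hΘ : Measurable fun z : ℝ × (ℂ × ℂ) => Θ z.1 z.2) (t : ℝ) : Measurable (Θ t) :=
  hΘ.comp measurable_prodMk_left

lemma obs_meas (hΘ : Measurable fun z : ℝ × (ℂ × ℂ) => Θ z.1 z.2) (hA : MeasurableSet A) (t : ℝ) :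
    Measurable (obs T Θ A t) := by
  unfold obs
  exact ((measurable_const.indicator hA).comp (meas_at hΘ t)).sub_const _

lemma obs_le (t : ℝ) (p : ℂ × ℂ) : |obs T Θ A t p| ≤ 1 := by
  unfold obs
  have h1 : T.mu.real A ≤ 1 := measureReal_le_one
  have h2 : 0 ≤ T.mu.real A := measureReal_nonneg
  by_cases h : Θ t p ∈ A
  · rw [indicator_of_mem h, abs_le]
    constructor <;> linarith
  · rw [indicator_of_notMem h, abs_le]
    constructor <;> linarith

lemma obs_set (hΘ : Measurable fun z : ℝ × (ℂ × ℂ) => Θ z.1 z.2) (hA : MeasurableSet A) (t : ℝ)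
    {B : Set (ℂ × ℂ)} :
    ∫ p in B, obs T Θ A t p ∂T.mu =
      T.mu.real (Θ t ⁻¹' A ∩ B) - T.mu.real A * T.mu.real B := by
  have hm : MeasurableSet (Θ t ⁻¹' A) := meas_at hΘ t hA
  have h1 : ∀ p, obs T Θ A t p = (Θ t ⁻¹' A).indicator (fun _ => (1 : ℝ)) p - T.mu.real A :=
    fun p => rfl
  simp only [h1]
  rw [integral_sub ((integrable_const _).indicator hm) (integrable_const _),
    integral_indicator hm, integral_const, integral_const, smul_eq_mul, smul_eq_mul, mul_one,
    Measure.real, Measure.restrict_apply_univ, Measure.restrict_apply hm, Measure.real,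
    Measure.restrict_apply_univ, mul_comm (T.mu B).toReal]
  rfl

lemma obs_arc (hΘ : Measurable fun z : ℝ × (ℂ × ℂ) => Θ z.1 z.2) (hA : MeasurableSet A) (t : ℝ)
    (I : Set ℂ) (x : ℂ) : ∫ θ in I, obs T Θ A t (x, θ) ∂nu =
      nu.real (I ∩ {θ | Θ t (x, θ) ∈ A}) - nu.real I * T.mu.real A := by
  have hm : MeasurableSet {θ | Θ t (x, θ) ∈ A} :=
    ((meas_at hΘ t).comp measurable_prodMk_left) hA
  have h1 : ∀ θ, obs T Θ A t (x, θ) =
      ({θ | Θ t (x, θ) ∈ A} : Set ℂ).indicator (fun _ => (1 : ℝ)) θ - T.mu.real A :=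
    fun p => rfl
  simp only [h1]
  rw [integral_sub ((integrable_const _).indicator hm) (integrable_const _),
    integral_indicator hm, integral_const, integral_const, smul_eq_mul, smul_eq_mul, mul_one,
    Measure.real, Measure.restrict_apply_univ, Measure.restrict_apply hm, Measure.real,
    Measure.restrict_apply_univ, inter_comm]
  rfl

lemma circ_eq (hΘ : Measurable fun z : ℝ × (ℂ × ℂ) => Θ z.1 z.2) (hA : MeasurableSet A) (t : ℝ)
    (I : Set ℂ) : circ T Θ A I t = ∫ x, (∫ θ in I, obs T Θ A t (x, θ) ∂nu) ^ 2 ∂(pos T) := by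
  unfold circ
  refine integral_congr_ae (ae_of_all _ fun x => ?_)
  simp only
  rw [obs_arc hΘ hA t I x]

lemma circ_nonneg (I : Set ℂ) (t : ℝ) : 0 ≤ circ T Θ A I t :=
  integral_nonneg fun _ => sq_nonneg _

/-- the thickening changes little, uniformly in time -/
lemma small_E (hΘ : PFlow T.mu Θ) (hb : T.IsBilliardFlow Θ) (hA : MeasurableSet A) {ε : ℝ}
    (hε : 0 < ε) : ∃ δ > 0, ∀ s, |s| < δ → ∀ t,
      ∫ p, |obs T Θ A t p - obs T Θ A t (Θ s p)| ∂T.mu ≤ ε := by
  have hf : Measurable (A.indicator (fun _ => (1 : ℝ))) := measurable_const.indicator hA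
  have hi : Integrable (A.indicator (fun _ => (1 : ℝ))) T.mu := (integrable_const _).indicator hA
  have h1 := cont_l1 hΘ.mp (tendsto_flow T hb) hi
  rw [Metric.tendsto_nhds_nhds] at h1
  obtain ⟨δ, hδ, h2⟩ := h1 ε hε
  refine ⟨δ, hδ, fun s hs t => ?_⟩
  have h3 := h2 (x := s) (by rwa [Real.dist_eq, sub_zero])
  rw [Real.dist_eq, sub_zero, abs_of_nonneg (integral_nonneg fun _ => abs_nonneg _)] at h3
  refine le_trans (le_of_eq ?_) h3.le
  set G : ℂ × ℂ → ℝ := fun q => |A.indicator (fun _ => (1 : ℝ)) (Θ s q) -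
    A.indicator (fun _ => (1 : ℝ)) q| with hG
  have hGm : Measurable G := ((hf.comp (hΘ.mp s).measurable).sub hf).abs
  have h4 : ∫ p, G (Θ t p) ∂T.mu = ∫ q, G q ∂T.mu := by
    conv_rhs => rw [← (hΘ.mp t).map_eq]
    exact (integral_map (hΘ.mp t).measurable.aemeasurable hGm.aestronglyMeasurable).symm
  rw [← h4]
  refine integral_congr_ae ?_
  filter_upwards [hΘ.add t s, hΘ.add s t] with p h5 h6
  rw [add_comm, h6] at h5
  simp only [obs, hG]
  rw [← h5, abs_sub_comm]
  congr 1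
  ring

/-- weak convergence of the push forwards of `A` implies mean square convergence on circles -/
theorem circ_null (hΘ : PFlow T.mu Θ) (hb : T.IsBilliardFlow Θ) (hA : MeasurableSet A) {t : ℕ → ℝ}
    (h : ∀ B, MeasurableSet B →
      W.Null fun n => T.mu.real (Θ (t n) ⁻¹' A ∩ B) - T.mu.real A * T.mu.real B)
    {I : Set ℂ} (hI : MeasurableSet I) : W.Null fun n => circ T Θ A I (t n) := by
  have hg : ∀ n, Measurable (obs T Θ A (t n)) := fun n => obs_meas hΘ.meas hA (t n)
  have h' : ∀ B, MeasurableSet B → W.Null fun n => ∫ p in B, obs T Θ A (t n) p ∂T.mu :=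
    fun B hB => (h B hB).congr fun n => obs_set hΘ.meas hA (t n)
  refine Wt.null_of_approx fun ε hε => ?_
  obtain ⟨δ0, hδ0, h0⟩ := small_E hΘ hb hA (ε := ε / 4) (by linarith)
  obtain ⟨δ1, hδ1, h1⟩ := exists_inner T (pos T) (ε := ε / 2) (by linarith)
  set δ := min (δ0 / 2) δ1 with hδd
  have hδ : 0 < δ := lt_min (by linarith) hδ1
  have hE : ∀ n, ∀ s ∈ Ioc 0 δ,
      ∫ p, |obs T Θ A (t n) p - obs T Θ A (t n) (Θ s p)| ∂T.mu ≤ ε / 4 := by
    intro n s hs
    refine h0 s ?_ (t n)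
    rw [abs_of_pos hs.1]
    have := hs.2.trans (min_le_left _ _)
    linarith
  have hc : (pos T).real (T.Q \ inner T δ) ≤ ε / 2 := by
    refine le_trans (measureReal_mono ?_) h1.le
    refine diff_subset_diff_right fun x hx => ?_
    exact lt_of_le_of_lt (min_le_right (δ0 / 2) δ1) (show δ1 < Metric.infDist x T.Qᶜ from hx)
  have hfin := rho_fin (T := T) hδ I
  refine ⟨_, null_pairs hg (fun n x => obs_le (t n) x) h' (rho_ac hδ hI), fun n => ?_⟩
  rw [circ_eq hΘ.meas hA]
  have e1 := collar (T := T) (hg n) (fun p => obs_le (t n) p) δ I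
  have e2 := thick (T := T) (hg n) (fun p => obs_le (t n) p) hb hΘ.meas hδ (hE n) hI
  rw [← square (T := T) (hg n) (fun p => obs_le (t n) p) hδ hI] at e2
  linarith

end

section

variable {X : Type} [MeasurableSpace X] {μ : Measure X} [IsFiniteMeasure μ]

lemma null_zero : W.Null fun _ => 0 := by
  unfold Wt.Null
  simp

lemma null_sum {ι : Type} (s : Finset ι) {a : ι → ℕ → ℝ} (h : ∀ i ∈ s, W.Null (a i)) :
    W.Null fun n => ∑ i ∈ s, a i n := by
  classical
  induction s using Finset.induction_on with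
  | empty => simpa using null_zero
  | insert i s hi ih =>
    have h1 := (h i (Finset.mem_insert_self i s)).add
      (ih fun j hj => h j (Finset.mem_insert_of_mem hj))
    refine h1.congr fun n => ?_
    rw [Finset.sum_insert hi]

lemma null_tsum {a : ℕ → ℕ → ℝ} {b : ℕ → ℝ} (hb : Summable b) (hab : ∀ i n, |a i n| ≤ b i)
    (h : ∀ i, W.Null (a i)) : W.Null fun n => ∑' i, a i n := by
  refine Wt.null_of_approx fun ε hε => ?_
  obtain ⟨k, hk⟩ := ((tendsto_order.1 (tendsto_sum_nat_add b)).2 ε hε).exists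
  refine ⟨_, null_sum (Finset.range k) fun i _ => h i, fun n => ?_⟩
  have hs : Summable fun i => a i n :=
    Summable.of_norm_bounded hb fun i => by rw [Real.norm_eq_abs]; exact hab i n
  rw [← hs.sum_add_tsum_nat_add k]
  have h1 : |∑' i, a (i + k) n| ≤ ∑' i, b (i + k) := by
    have h2 := tsum_of_norm_bounded (f := fun i => a (i + k) n)
      ((summable_nat_add_iff k).2 hb).hasSum fun i => by rw [Real.norm_eq_abs]; exact hab _ n
    rwa [Real.norm_eq_abs] at h2
  calc |∑ i ∈ Finset.range k, a i n + ∑' i, a (i + k) n|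
      ≤ |∑ i ∈ Finset.range k, a i n| + |∑' i, a (i + k) n| := abs_add_le _ _
    _ ≤ ε + |∑ i ∈ Finset.range k, a i n| := by linarith

/-- from a generating family to all sets -/
lemma null_gen {g : ℕ → X → ℝ} (hg : ∀ n, Measurable (g n)) (hb : ∀ n x, |g n x| ≤ 1)
    (h0 : ∀ n, ∫ x, g n x ∂μ = 0) {C : Set (Set X)}
    (hgen : ‹MeasurableSpace X› = MeasurableSpace.generateFrom C) (hpi : IsPiSystem C)
    (h : ∀ B ∈ C, W.Null fun n => ∫ x in B, g n x ∂μ) :
    ∀ B, MeasurableSet B → W.Null fun n => ∫ x in B, g n x ∂μ := by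
  have hi : ∀ n, Integrable (g n) μ := fun n => int_of_bdd (hg n) (hb n)
  intro B hB
  induction B, hB using MeasurableSpace.induction_on_inter hgen hpi with
  | empty =>
    refine null_zero.congr fun n => ?_
    simp
  | basic B hB => exact h B hB
  | compl B hB ih =>
    refine (ih.const_mul (-1)).congr fun n => ?_
    have h1 := integral_add_compl hB (hi n)
    rw [h0 n] at h1
    linarith
  | iUnion B hd hm ih =>
    have h1 : Summable fun i => μ.real (B i) := summable_measure_toReal hm hd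
    refine (null_tsum h1 (fun i n => ?_) ih).congr fun n => ?_
    · calc |∫ x in B i, g n x ∂μ| ≤ ∫ x in B i, |g n x| ∂μ := abs_integral_le_integral_abs
        _ ≤ ∫ x in B i, (1 : ℝ) ∂μ := by
            refine integral_mono_of_nonneg (ae_of_all _ fun x => abs_nonneg _) (integrable_const _)
              (ae_of_all _ fun x => hb n x)
        _ = μ.real (B i) := by
            rw [integral_const, smul_eq_mul, mul_one, Measure.real, Measure.restrict_apply_univ]
            rfl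
    · exact integral_iUnion hm hd (hi n).integrableOn

end

section

variable {Θ : ℝ → ℂ × ℂ → ℂ × ℂ} {A : Set (ℂ × ℂ)}

lemma le_eps (y : ℝ) {ε : ℝ} (hε : 0 < ε) : |y| ≤ ε + y ^ 2 / (4 * ε) := by
  have h1 : 0 ≤ (|y| - 2 * ε) ^ 2 := sq_nonneg _
  have h2 : |y| ^ 2 = y ^ 2 := sq_abs y
  have h3 : |y| * (4 * ε) ≤ (ε + y ^ 2 / (4 * ε)) * (4 * ε) := by
    have h4 : (ε + y ^ 2 / (4 * ε)) * (4 * ε) = 4 * ε ^ 2 + y ^ 2 := by
      field_simp
    rw [h4]
    nlinarith
  exact le_of_mul_le_mul_right h3 (by positivity)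

/-- mean square convergence on circles implies weak convergence -/
theorem null_of_circ (hΘ : PFlow T.mu Θ) (hA : MeasurableSet A) {t : ℕ → ℝ}
    (h : ∀ I : Set ℂ, MeasurableSet I → W.Null fun n => circ T Θ A I (t n)) :
    ∀ B, MeasurableSet B →
      W.Null fun n => T.mu.real (Θ (t n) ⁻¹' A ∩ B) - T.mu.real A * T.mu.real B := by
  have hg : ∀ n, Measurable (obs T Θ A (t n)) := fun n => obs_meas hΘ.meas hA (t n)
  have hgb : ∀ n p, |obs T Θ A (t n) p| ≤ 1 := fun n p => obs_le (t n) p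
  have key : ∀ B, MeasurableSet B → W.Null fun n => ∫ p in B, obs T Θ A (t n) p ∂T.mu := by
    refine null_gen hg hgb (fun n => ?_) (generateFrom_prod (α := ℂ) (β := ℂ)).symm isPiSystem_prod ?_
    · have h1 := obs_set (T := T) (B := univ) hΘ.meas hA (t n)
      rw [Measure.restrict_univ, inter_univ, Measure.real, (hΘ.mp (t n)).measure_preimage
        hA.nullMeasurableSet] at h1
      rw [h1]
      simp [Measure.real]
    · rintro B ⟨E, hE, I, hI, rfl⟩
      refine Wt.null_of_approx fun ε hε => ?_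
      refine ⟨_, (h I hI).const_mul (1 / (4 * ε)), fun n => ?_⟩
      have hc := circ_eq (T := T) (I := I) hΘ.meas hA (t n)
      have hcm : Measurable fun x => ∫ θ in I, obs T Θ A (t n) (x, θ) ∂nu :=
        (measurable_arc (hg n) (hgb n) I).measurable
      have hcb : ∀ x, |∫ θ in I, obs T Θ A (t n) (x, θ) ∂nu| ≤ 1 := arc_le (hg n) (hgb n) I
      have h2 : ∫ p in E ×ˢ I, obs T Θ A (t n) p ∂T.mu =
          ∫ x in E, ∫ θ in I, obs T Θ A (t n) (x, θ) ∂nu ∂(pos T) := by
        have h3 : Integrable (obs T Θ A (t n)) ((pos T).prod nu) := int_of_bdd (hg n) (hgb n)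
        exact setIntegral_prod _ h3.integrableOn
      rw [h2]
      have i1 : Integrable (fun x => ∫ θ in I, obs T Θ A (t n) (x, θ) ∂nu) (pos T) :=
        int_of_bdd hcm hcb
      have i2 : Integrable (fun x => (∫ θ in I, obs T Θ A (t n) (x, θ) ∂nu) ^ 2) (pos T) :=
        int_of_bdd (hcm.pow_const 2) (C := 1) fun x => by
          rw [abs_pow]
          exact pow_le_one₀ (abs_nonneg _) (hcb x)
      calc |∫ x in E, ∫ θ in I, obs T Θ A (t n) (x, θ) ∂nu ∂(pos T)|
          ≤ ∫ x in E, |∫ θ in I, obs T Θ A (t n) (x, θ) ∂nu| ∂(pos T) :=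
            abs_integral_le_integral_abs
        _ ≤ ∫ x, |∫ θ in I, obs T Θ A (t n) (x, θ) ∂nu| ∂(pos T) :=
            setIntegral_le_integral i1.abs (ae_of_all _ fun x => abs_nonneg _)
        _ ≤ ∫ x, (ε + (∫ θ in I, obs T Θ A (t n) (x, θ) ∂nu) ^ 2 / (4 * ε)) ∂(pos T) := by
            refine integral_mono i1.abs ((integrable_const _).add (i2.div_const _)) fun x => ?_
            exact le_eps _ hε
        _ = ε + 1 / (4 * ε) * circ T Θ A I (t n) := by
            rw [hc, integral_add (integrable_const _) (i2.div_const _), integral_div]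
            simp
            ring
        _ ≤ ε + |1 / (4 * ε) * circ T Θ A I (t n)| := by
            gcongr
            exact le_abs_self _
  exact fun B hB => (key B hB).congr fun n => (obs_set hΘ.meas hA (t n)).symm

end

/-- transfer from a good version of the flow -/
lemma circ_congr {Θ Φ : ℝ → ℂ × ℂ → ℂ × ℂ} {t : ℝ} (h : ∀ᵐ p ∂T.mu, Φ t p = Θ t p)
    (A : Set (ℂ × ℂ)) (I : Set ℂ) : circ T Φ A I t = circ T Θ A I t := by
  unfold circ
  refine integral_congr_ae ?_
  have h1 : ∀ᵐ x ∂(pos T), ∀ᵐ θ ∂nu, Φ t (x, θ) = Θ t (x, θ) := Measure.ae_ae_of_ae_prod h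
  filter_upwards [h1] with x hx
  have h2 : nu (I ∩ {θ | Φ t (x, θ) ∈ A}) = nu (I ∩ {θ | Θ t (x, θ) ∈ A}) := by
    refine measure_congr ?_
    filter_upwards [hx] with θ hθ
    refine propext ⟨fun hh => ⟨hh.1, ?_⟩, fun hh => ⟨hh.1, ?_⟩⟩
    · have := hh.2
      simp only [mem_setOf_eq] at this ⊢
      rwa [← hθ]
    · have := hh.2
      simp only [mem_setOf_eq] at this ⊢
      rwa [hθ]
  simp only [Measure.real, h2]

lemma corr_congr {Θ Φ : ℝ → ℂ × ℂ → ℂ × ℂ} {t : ℝ} (h : ∀ᵐ p ∂T.mu, Φ t p = Θ t p)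
    (A B : Set (ℂ × ℂ)) : T.mu.real (Φ t ⁻¹' A ∩ B) = T.mu.real (Θ t ⁻¹' A ∩ B) := by
  unfold Measure.real
  congr 1
  refine measure_congr ?_
  filter_upwards [h] with p hp
  refine propext ⟨fun hh => ⟨?_, hh.2⟩, fun hh => ⟨?_, hh.2⟩⟩
  · have := hh.1
    simp only [mem_preimage] at this ⊢
    rwa [← hp]
  · have := hh.1
    simp only [mem_preimage] at this ⊢
    rwa [hp]

/-- The equivalence, for all averages. -/
theorem circ_iff (W : Wt) (T : PolygonalTable N) {Φ : ℝ → ℂ × ℂ → ℂ × ℂ}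
    (hΦ : T.IsBilliardFlow Φ) {A : Set (ℂ × ℂ)} (hA : MeasurableSet A) (t : ℕ → ℝ) :
    (∀ B, MeasurableSet B →
      W.Null fun n => T.mu.real (Φ (t n) ⁻¹' A ∩ B) - T.mu.real A * T.mu.real B) ↔
    ∀ I : Set ℂ, MeasurableSet I → W.Null fun n => circ T Φ A I (t n) := by
  obtain ⟨Θ, hΘ, hb, hu⟩ := exists_good_table_flow T
  have hae := hu Φ hΦ
  have e1 : ∀ (B : Set (ℂ × ℂ)) n, T.mu.real (Φ (t n) ⁻¹' A ∩ B) - T.mu.real A * T.mu.real B =
      T.mu.real (Θ (t n) ⁻¹' A ∩ B) - T.mu.real A * T.mu.real B := fun B n => by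
    rw [corr_congr (hae (t n))]
  have e2 : ∀ (I : Set ℂ) n, circ T Φ A I (t n) = circ T Θ A I (t n) := fun I n =>
    circ_congr (hae (t n)) A I
  simp only [e1, e2]
  exact ⟨fun h I hI => circ_null hΘ hb hA h hI, fun h => null_of_circ hΘ hA h⟩

end Vale.Agent.P099.R2.H278
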