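import Vale.Agent.P099.R2.H278.Main
import Vale.Agent.P099.R2.H278.Birk

set_option linter.all false

open MeasureTheory Set Filter Topology

namespace Vale.Agent.P099.R2.H278

open Vale.Agent.P099 Vale.Agent.P099T

section abstract

variable {X : Type} {S : X → X} {g : X → ℝ}

/-- averages over pairs -/
noncomputable def av (S : X → X) (g : X → ℝ) (n : ℕ) (z : X × X) : ℝ :=
  (n : ℝ)⁻¹ * ∑ k ∈ Finset.range n, g (S^[k] z.1) * g (S^[k] z.2)

/-- averages of the change -/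
noncomputable def dv (S : X → X) (g : X → ℝ) (n : ℕ) (p q : X) : ℝ :=
  (n : ℝ)⁻¹ * ∑ k ∈ Finset.range n, |g (S^[k] p) - g (S^[k] q)|

lemma av_le (hb : ∀ p, |g p| ≤ 1) (n : ℕ) (z : X × X) : |av S g n z| ≤ 1 := by
  unfold av
  rw [abs_mul, abs_of_nonneg (by positivity)]
  rcases Nat.eq_zero_or_pos n with h0 | h0
  · subst h0
    simp
  · have hn : (0 : ℝ) < n := by exact_mod_cast h0
    rw [inv_mul_le_iff₀ hn, mul_one]
    calc |∑ k ∈ Finset.range n, g (S^[k] z.1) * g (S^[k] z.2)|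
        ≤ ∑ k ∈ Finset.range n, |g (S^[k] z.1) * g (S^[k] z.2)| := Finset.abs_sum_le_sum_abs _ _
      _ ≤ ∑ _k ∈ Finset.range n, (1 : ℝ) := Finset.sum_le_sum fun k _ => by
          rw [abs_mul]
          exact mul_le_one₀ (hb _) (abs_nonneg _) (hb _)
      _ = n := by simp

lemma av_sub (hb : ∀ p, |g p| ≤ 1) (n : ℕ) (z w : X × X) :
    |av S g n z - av S g n w| ≤ dv S g n z.1 w.1 + dv S g n z.2 w.2 := by
  unfold av dv
  rw [← mul_sub, ← mul_add, ← Finset.sum_sub_distrib, ← Finset.sum_add_distrib, abs_mul,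
    abs_of_nonneg (by positivity : (0 : ℝ) ≤ (n : ℝ)⁻¹)]
  refine mul_le_mul_of_nonneg_left ?_ (by positivity)
  refine (Finset.abs_sum_le_sum_abs _ _).trans (Finset.sum_le_sum fun k _ => ?_)
  exact abs_mul_sub_mul_le (hb _) (hb _)

variable [MeasurableSpace X] {μ : Measure X} [IsProbabilityMeasure μ]

lemma av_meas (hS : Measurable S) (hg : Measurable g) (n : ℕ) : Measurable (av S g n) := by
  unfold av
  refine (Finset.measurable_fun_sum _ fun k _ => ?_).const_mul _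
  exact ((hg.comp (hS.iterate k)).comp measurable_fst).mul
    ((hg.comp (hS.iterate k)).comp measurable_snd)

/-- Birkhoff for pairs -/
lemma pair_birkhoff (hS : Ergodic (fun z : X × X => (S z.1, S z.2)) (μ.prod μ))
    (hg : Measurable g) (hb : ∀ p, |g p| ≤ 1) (h0 : ∫ p, g p ∂μ = 0) :
    ∀ᵐ z ∂(μ.prod μ), Tendsto (fun n => av S g n z) atTop (𝓝 0) := by
  have h1 := birkhoff_ergodic hS (f := fun z : X × X => g z.1 * g z.2)
    ((hg.comp measurable_fst).mul (hg.comp measurable_snd)) (C := 1) (fun z => by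
      rw [abs_mul]
      exact mul_le_one₀ (hb _) (abs_nonneg _) (hb _))
  have h2 : ∫ z, g z.1 * g z.2 ∂(μ.prod μ) = 0 := by
    rw [integral_prod_mul, h0, zero_mul]
  rw [h2] at h1
  have h3 : ∀ (k : ℕ) (z : X × X),
      (fun z : X × X => (S z.1, S z.2))^[k] z = (S^[k] z.1, S^[k] z.2) := by
    intro k
    induction k with
    | zero => intro z; rfl
    | succ k ih =>
      intro z
      rw [Function.iterate_succ_apply, ih, Function.iterate_succ_apply, Function.iterate_succ_apply]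
  filter_upwards [h1] with z hz
  refine hz.congr fun n => ?_
  unfold av
  simp only [h3]

end abstract

variable {N : ℕ} {T : PolygonalTable N} {Θ : ℝ → ℂ × ℂ → ℂ × ℂ} {g : ℂ × ℂ → ℝ}

lemma iter_comm (hΘ : PFlow T.mu Θ) (τ s : ℝ) :
    ∀ᵐ p ∂T.mu, ∀ k : ℕ, Θ s ((Θ τ)^[k] p) = (Θ τ)^[k] (Θ s p) := by
  rw [ae_all_iff]
  intro k
  induction k with
  | zero => exact ae_of_all _ fun p => rfl
  | succ k ih =>
    have h1 : ∀ᵐ p ∂T.mu, Θ s (Θ τ p) = Θ τ (Θ s p) := by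
      filter_upwards [hΘ.add s τ, hΘ.add τ s] with p h1 h2
      rw [← h1, ← h2, add_comm]
    have h2 := ((hΘ.mp τ).iterate k).quasiMeasurePreserving.ae h1
    filter_upwards [ih, h2] with p h3 h4
    rw [Function.iterate_succ_apply', Function.iterate_succ_apply', h4, h3]

/-- small displacements change the averages little -/
lemma dv_small (hΘ : PFlow T.mu Θ) {τ : ℝ} (hS : Ergodic (Θ τ) T.mu) (hg : Measurable g)
    (hb : ∀ p, |g p| ≤ 1) {ε : ℝ} (hε : 0 < ε) {s : ℝ}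
    (hE : ∫ p, |g p - g (Θ s p)| ∂T.mu ≤ ε) :
    ∀ᵐ p ∂T.mu, ∀ᶠ n in atTop, dv (Θ τ) g n p (Θ s p) ≤ 2 * ε := by
  have h1 := birkhoff_ergodic hS (f := fun p => |g p - g (Θ s p)|)
    ((hg.sub (hg.comp (hΘ.mp s).measurable)).abs) (C := 2) (fun p => by
      rw [abs_abs]
      refine (abs_sub _ _).trans ?_
      have := hb p
      have := hb (Θ s p)
      linarith)
  filter_upwards [h1, iter_comm hΘ τ s] with p hp hk
  have h2 : Tendsto (fun n => dv (Θ τ) g n p (Θ s p)) atTop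
      (𝓝 (∫ p, |g p - g (Θ s p)| ∂T.mu)) := by
    refine hp.congr fun n => ?_
    unfold dv
    simp only [hk]
  exact ((tendsto_order.1 h2).2 (2 * ε) (by linarith)).mono fun n hn => hn.le

lemma dv_meas (hΘ : PFlow T.mu Θ) (τ : ℝ) (hg : Measurable g) (n : ℕ) :
    Measurable fun w : ℝ × (ℂ × ℂ) => dv (Θ τ) g n w.2 (Θ w.1 w.2) := by
  unfold dv
  have hS := (hΘ.mp τ).measurable
  refine (Finset.measurable_fun_sum _ fun k _ => ?_).const_mul _
  exact (((hg.comp (hS.iterate k)).comp measurable_snd).sub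
    ((hg.comp (hS.iterate k)).comp hΘ.meas)).abs

lemma dv_small' (hΘ : PFlow T.mu Θ) {τ : ℝ} (hS : Ergodic (Θ τ) T.mu) (hg : Measurable g)
    (hb : ∀ p, |g p| ≤ 1) {ε : ℝ} (hε : 0 < ε) {δ : ℝ} (hδ : 0 < δ)
    (hE : ∀ s ∈ Ioc 0 δ, ∫ p, |g p - g (Θ s p)| ∂T.mu ≤ ε) :
    ∀ᵐ w ∂((lam δ).prod T.mu), ∀ᶠ n in atTop, dv (Θ τ) g n w.2 (Θ w.1 w.2) ≤ 2 * ε := by
  have := prob_lam hδ
  have hm : MeasurableSet {w : ℝ × (ℂ × ℂ) | ∀ᶠ n in atTop,
      dv (Θ τ) g n w.2 (Θ w.1 w.2) ≤ 2 * ε} := by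
    have h1 : {w : ℝ × (ℂ × ℂ) | ∀ᶠ n in atTop, dv (Θ τ) g n w.2 (Θ w.1 w.2) ≤ 2 * ε} =
        ⋃ m : ℕ, ⋂ n : ℕ, ⋂ _ : m ≤ n, {w | dv (Θ τ) g n w.2 (Θ w.1 w.2) ≤ 2 * ε} := by
      ext w
      simp [eventually_atTop]
    rw [h1]
    exact MeasurableSet.iUnion fun m => MeasurableSet.iInter fun n => MeasurableSet.iInter
      fun _ => measurableSet_le (dv_meas hΘ τ hg n) measurable_const
  rw [Measure.ae_prod_iff_ae_ae hm]
  filter_upwards [lam_ae δ] with s hs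
  exact dv_small hΘ hS hg hb hε (hE s hs)

/-- The pairs with a common centre, near the centre. -/
lemma pair_near (hΘ : PFlow T.mu Θ) (hbf : T.IsBilliardFlow Θ) {τ : ℝ} (hS : Ergodic (Θ τ) T.mu)
    (hS2 : Ergodic (fun z : (ℂ × ℂ) × (ℂ × ℂ) => (Θ τ z.1, Θ τ z.2)) (T.mu.prod T.mu))
    (hg : Measurable g) (hb : ∀ p, |g p| ≤ 1) (h0 : ∫ p, g p ∂T.mu = 0)
    {ε : ℝ} (hε : 0 < ε) {δ : ℝ} (hδ : 0 < δ)
    (hE : ∀ s ∈ Ioc 0 δ, ∫ p, |g p - g (Θ s p)| ∂T.mu ≤ ε) :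
    ∀ᵐ w ∂((pos T).prod (nu.prod nu)), w.1 ∈ inner T δ → ∀ᶠ n in atTop,
      |av (Θ τ) g n ((w.1, w.2.1), (w.1, w.2.2))| ≤ 5 * ε := by
  have hpl := prob_lam hδ
  have hpk := kap_prob (T := T) hδ
  have hSm := (hΘ.mp τ).measurable
  -- the pairs in the thickened position
  have h1 : ∀ᵐ w ∂(rho T δ univ), Tendsto (fun n => av (Θ τ) g n w) atTop (𝓝 0) :=
    (rho_ac hδ MeasurableSet.univ).ae_le (pair_birkhoff hS2 hg hb h0)
  have h2 : ∀ᵐ z ∂((kap T δ).restrict (pairs T δ univ)),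
      Tendsto (fun n => av (Θ τ) g n (fan z)) atTop (𝓝 0) :=
    ae_of_ae_map measurable_fan.aemeasurable h1
  rw [ae_restrict_iff' (measurable_pairs MeasurableSet.univ)] at h2
  have hd := dv_small' hΘ hS hg hb hε hδ hE
  have hd1 := (mp1 (T := T) hδ).quasiMeasurePreserving.ae hd
  have hd2 := (mp2 (T := T) hδ).quasiMeasurePreserving.ae hd
  have hst : ∀ᵐ w ∂((lam δ).prod T.mu), w.2.1 ∈ inner T δ →
      Θ w.1 w.2 = (w.2.1 + w.1 • w.2.2, w.2.2) := by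
    have h1 : ∀ᵐ w ∂((lam δ).prod T.mu), w.1 ∈ Ioc 0 δ :=
      measurePreserving_fst.quasiMeasurePreserving.ae (lam_ae δ)
    have h2 := (measurePreserving_snd (μ := lam δ) (ν := T.mu)).quasiMeasurePreserving.ae
      (flow_straight T hbf δ)
    filter_upwards [h1, h2] with w hw1 hw2 hw3
    exact hw2 hw3 w.1 ⟨hw1.1.le, hw1.2⟩
  have hst1 := (mp1 (T := T) hδ).quasiMeasurePreserving.ae hst
  have hst2 := (mp2 (T := T) hδ).quasiMeasurePreserving.ae hst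
  have hkey : ∀ᵐ z ∂(kap T δ), z.2.2.2 ∈ inner T δ → ∀ᶠ n in atTop,
      |av (Θ τ) g n ((z.2.2.2, z.1.1), (z.2.2.2, z.1.2))| ≤ 5 * ε := by
    filter_upwards [h2, hd1, hd2, hst1, hst2] with z hz hz1 hz2 hz3 hz4 hin
    have e0 := hz ⟨mem_univ _, mem_univ _, hin⟩
    have e1 : (fan z).1 = Θ z.2.1 (z.2.2.2, z.1.1) := (hz3 hin).symm
    have e2 : (fan z).2 = Θ z.2.2.1 (z.2.2.2, z.1.2) := (hz4 hin).symm
    have e3 : ∀ᶠ n in atTop, |av (Θ τ) g n (fan z)| < ε := by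
      have := (tendsto_order.1 e0.abs).2 ε (by simpa using hε)
      exact this
    filter_upwards [e3, hz1, hz2] with n k1 k2 k3
    have k4 := av_sub (S := Θ τ) hb n ((z.2.2.2, z.1.1), (z.2.2.2, z.1.2)) (fan z)
    rw [e1, e2] at k4
    simp only at k2 k3 k4
    have k5 := abs_sub_abs_le_abs_sub
      (av (Θ τ) g n ((z.2.2.2, z.1.1), (z.2.2.2, z.1.2))) (av (Θ τ) g n (fan z))
    linarith
  have hset : MeasurableSet {w : ℂ × (ℂ × ℂ) | w.1 ∈ inner T δ → ∀ᶠ n in atTop,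
      |av (Θ τ) g n ((w.1, w.2.1), (w.1, w.2.2))| ≤ 5 * ε} := by
    have h3 : {w : ℂ × (ℂ × ℂ) | w.1 ∈ inner T δ → ∀ᶠ n in atTop,
        |av (Θ τ) g n ((w.1, w.2.1), (w.1, w.2.2))| ≤ 5 * ε} =
        {w | w.1 ∈ inner T δ}ᶜ ∪ ⋃ m : ℕ, ⋂ n : ℕ, ⋂ _ : m ≤ n,
          {w | |av (Θ τ) g n ((w.1, w.2.1), (w.1, w.2.2))| ≤ 5 * ε} := by
      ext w
      simp [eventually_atTop, imp_iff_not_or]
    rw [h3]
    refine MeasurableSet.union (measurable_fst (measurable_inner T δ)).compl ?_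
    refine MeasurableSet.iUnion fun m => MeasurableSet.iInter fun n => MeasurableSet.iInter
      fun _ => measurableSet_le ?_ measurable_const
    refine ((av_meas hSm hg n).comp ?_).abs
    fun_prop
  rw [← (mp0 (T := T) hδ).map_eq]
  exact (ae_map_iff (mp0 (T := T) hδ).measurable.aemeasurable hset).2 hkey

/-- The pairs with a common centre. -/
theorem pair_centre (hΘ : PFlow T.mu Θ) (hbf : T.IsBilliardFlow Θ) {τ : ℝ}
    (hS : Ergodic (Θ τ) T.mu)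
    (hS2 : Ergodic (fun z : (ℂ × ℂ) × (ℂ × ℂ) => (Θ τ z.1, Θ τ z.2)) (T.mu.prod T.mu))
    (hg : Measurable g) (hb : ∀ p, |g p| ≤ 1) (h0 : ∫ p, g p ∂T.mu = 0)
    (hE : ∀ ε > 0, ∃ δ > 0, ∀ s, |s| < δ → ∫ p, |g p - g (Θ s p)| ∂T.mu ≤ ε) :
    ∀ᵐ w ∂((pos T).prod (nu.prod nu)),
      Tendsto (fun n => av (Θ τ) g n ((w.1, w.2.1), (w.1, w.2.2))) atTop (𝓝 0) := by
  have hQ : ∀ᵐ w ∂((pos T).prod (nu.prod nu)), w.1 ∈ T.Q :=
    (measurePreserving_fst (μ := pos T) (ν := nu.prod nu)).quasiMeasurePreserving.ae (ae_cond T)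
  have hall : ∀ᵐ w ∂((pos T).prod (nu.prod nu)), ∀ j : ℕ, ∀ᶠ n in atTop,
      |av (Θ τ) g n ((w.1, w.2.1), (w.1, w.2.2))| ≤ 5 * (1 / ((j : ℝ) + 1)) := by
    rw [ae_all_iff]
    intro j
    have hε : (0 : ℝ) < 1 / ((j : ℝ) + 1) := by positivity
    obtain ⟨δ, hδ, hδ2⟩ := hE _ hε
    have h1 : ∀ m : ℕ, ∀ᵐ w ∂((pos T).prod (nu.prod nu)),
        w.1 ∈ inner T (min (δ / 2) (1 / ((m : ℝ) + 1))) → ∀ᶠ n in atTop,
        |av (Θ τ) g n ((w.1, w.2.1), (w.1, w.2.2))| ≤ 5 * (1 / ((j : ℝ) + 1)) := by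
      intro m
      have hm : (0 : ℝ) < min (δ / 2) (1 / ((m : ℝ) + 1)) := lt_min (by linarith) (by positivity)
      refine pair_near hΘ hbf hS hS2 hg hb h0 hε hm fun s hs => hδ2 s ?_
      rw [abs_of_pos hs.1]
      have := hs.2.trans (min_le_left _ _)
      linarith
    filter_upwards [hQ, ae_all_iff.2 h1] with w hwQ hw
    have h3 : 0 < Metric.infDist w.1 T.Qᶜ :=
      (T.isOpen.isClosed_compl.notMem_iff_infDist_pos (compl_nonempty T)).1 (fun h => h hwQ)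
    obtain ⟨m, hm⟩ := exists_nat_one_div_lt h3
    refine hw m ?_
    exact lt_of_le_of_lt (min_le_right (δ / 2) (1 / ((m : ℝ) + 1))) hm
  filter_upwards [hall] with w hw
  rw [Metric.tendsto_atTop]
  intro ε hε
  obtain ⟨j, hj⟩ := exists_nat_one_div_lt (show (0 : ℝ) < ε / 5 by positivity)
  obtain ⟨n0, hn0⟩ := eventually_atTop.1 (hw j)
  refine ⟨n0, fun n hn => ?_⟩
  rw [Real.dist_eq, sub_zero]
  have := hn0 n hn
  linarith

/-- Pointwise in the centre. -/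
theorem centre_avg (hΘ : PFlow T.mu Θ) (hbf : T.IsBilliardFlow Θ) {τ : ℝ}
    (hS : Ergodic (Θ τ) T.mu)
    (hS2 : Ergodic (fun z : (ℂ × ℂ) × (ℂ × ℂ) => (Θ τ z.1, Θ τ z.2)) (T.mu.prod T.mu))
    (hg : Measurable g) (hb : ∀ p, |g p| ≤ 1) (h0 : ∫ p, g p ∂T.mu = 0)
    (hE : ∀ ε > 0, ∃ δ > 0, ∀ s, |s| < δ → ∫ p, |g p - g (Θ s p)| ∂T.mu ≤ ε) :
    ∀ᵐ x ∂(pos T), ∀ I : Set ℂ, MeasurableSet I →
      Tendsto (fun n : ℕ => (n : ℝ)⁻¹ * ∑ k ∈ Finset.range n,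
        (∫ θ in I, g ((Θ τ)^[k] (x, θ)) ∂nu) ^ 2) atTop (𝓝 0) := by
  have h1 := Measure.ae_ae_of_ae_prod (pair_centre hΘ hbf hS hS2 hg hb h0 hE)
  have hSm := (hΘ.mp τ).measurable
  filter_upwards [h1] with x hx I hI
  have hgm : ∀ k : ℕ, Measurable fun θ : ℂ => g ((Θ τ)^[k] (x, θ)) := fun k =>
    (hg.comp (hSm.iterate k)).comp measurable_prodMk_left
  have hm : ∀ n, Measurable fun u : ℂ × ℂ => av (Θ τ) g n ((x, u.1), (x, u.2)) := fun n => by
    refine (av_meas hSm hg n).comp ?_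
    fun_prop
  have h2 : Tendsto (fun n => ∫ u in I ×ˢ I, av (Θ τ) g n ((x, u.1), (x, u.2)) ∂(nu.prod nu)) atTop
      (𝓝 (∫ u in I ×ˢ I, (0 : ℝ) ∂(nu.prod nu))) := by
    refine tendsto_integral_of_dominated_convergence (fun _ => 1) ?_ (integrable_const _) ?_ ?_
    · exact fun n => (hm n).aestronglyMeasurable
    · exact fun n => ae_of_all _ fun u => by rw [Real.norm_eq_abs]; exact av_le hb n _
    · exact ae_restrict_of_ae hx
  rw [integral_zero] at h2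
  refine h2.congr fun n => ?_
  unfold av
  rw [integral_const_mul, integral_finset_sum]
  · congr 1
    refine Finset.sum_congr rfl fun k _ => ?_
    simp only
    rw [setIntegral_prod_mul (μ := nu) (ν := nu) (fun θ => g ((Θ τ)^[k] (x, θ)))
      (fun θ => g ((Θ τ)^[k] (x, θ))) I I, sq]
  · intro k _
    refine int_of_bdd (C := 1) (((hgm k).comp measurable_fst).mul ((hgm k).comp measurable_snd))
      fun u => ?_
    rw [abs_mul]
    exact mul_le_one₀ (hb _) (abs_nonneg _) (hb _)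

end Vale.Agent.P099.R2.H278
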