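import Vale.Agent.P099.H184.PT.Maps

set_option linter.all false

open MeasureTheory Set Filter Topology

namespace Vale.Agent.P099.R2.H278

open Vale.Agent.P099 Vale.Agent.P099T

variable {N : ℕ} (T : PolygonalTable N)

lemma side_notMem (i : Fin N) {z : ℂ} (hz : z ∈ T.side i) : z ∉ T.Q := by
  intro h
  have h1 : z ∈ frontier T.Q := by
    rw [T.frontier_eq]
    exact mem_iUnion.2 ⟨i, openSegment_subset_segment ℝ _ _ hz⟩
  rw [T.isOpen.frontier_eq] at h1
  exact h1.2 h

/-- inside the table a trajectory is straight -/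
lemma straight {γ : ℝ → ℂ × ℂ} (hγ : T.IsTrajectory γ) {x u : ℂ} (h0 : γ 0 = (x, u)) {δ : ℝ}
    (hδ : ∀ s ∈ Icc (0 : ℝ) δ, x + s • u ∈ T.Q) {s : ℝ} (hs : s ∈ Icc (0 : ℝ) δ) :
    γ s = (x + s • u, u) := by
  set S : Set ℝ := {t | ∀ r ∈ Icc (0 : ℝ) t, γ r = (x + r • u, u)} with hS
  have hδ0 : 0 ≤ δ := hs.1.trans hs.2
  have hmain : Icc (0 : ℝ) δ ⊆ S := by
    refine IsClosed.Icc_subset_of_forall_exists_gt ?_ ?_ ?_
    · -- closed
      rw [← isSeqClosed_iff_isClosed]
      intro v t hv hvt
      have ht : t ∈ Icc (0 : ℝ) δ := isClosed_Icc.isSeqClosed (fun n => (hv n).2) hvt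
      refine ⟨?_, ht⟩
      have hlt : ∀ r, 0 ≤ r → r < t → γ r = (x + r • u, u) := by
        intro r hr0 hrt
        obtain ⟨n, hn⟩ := ((tendsto_order.1 hvt).1 r hrt).exists
        exact (hv n).1 r ⟨hr0, hn.le⟩
      intro r hr
      rcases hr.2.lt_or_eq with h | h
      · exact hlt r hr.1 h
      subst h
      rcases hr.1.lt_or_eq with hr0 | hr0
      · rcases hγ r with ⟨h1, h2⟩ | ⟨i, u', h1, h2, -⟩
        · have h3 : ∀ᶠ q in 𝓝[<] r, γ q = ((γ r).1 + (q - r) • (γ r).2, (γ r).2) :=
            h2.filter_mono nhdsWithin_le_nhds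
          have h4 : ∀ᶠ q in 𝓝[<] r, q ∈ Ioo 0 r := Ioo_mem_nhdsLT hr0
          obtain ⟨q, hq, hq2⟩ := (h3.and h4).exists
          have h5 := hlt q hq2.1.le hq2.2
          rw [hq, Prod.mk.injEq] at h5
          refine Prod.ext ?_ h5.2
          have h6 := h5.1
          rw [h5.2] at h6
          show (γ r).1 = x + r • u
          have h7 : (γ r).1 = x + q • u - (q - r) • u := eq_sub_of_add_eq h6
          rw [h7, sub_smul]
          ring
        · exfalso
          have h4 : ∀ᶠ q in 𝓝[<] r, q ∈ Ioo 0 r := Ioo_mem_nhdsLT hr0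
          obtain ⟨q, hq, hq2⟩ := (h2.and h4).exists
          have h5 := hlt q hq2.1.le hq2.2
          rw [hq, Prod.mk.injEq] at h5
          have h6 := h5.1
          rw [h5.2] at h6
          have h7 : (γ r).1 = x + q • u - (q - r) • u := eq_sub_of_add_eq h6
          have h8 : (γ r).1 = x + r • u := by
            rw [h7, sub_smul]
            ring
          refine side_notMem T i h1 ?_
          rw [h8]
          exact hδ r ht
      · subst hr0
        rw [h0]
        simp
    · -- zero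
      intro r hr
      have : r = 0 := le_antisymm hr.2 hr.1
      subst this
      rw [h0]
      simp
    · intro t ht y hy
      have h1 : γ t = (x + t • u, u) := ht.1 t ⟨ht.2.1, le_refl t⟩
      have h2 : (γ t).1 ∈ T.Q := by
        rw [h1]
        exact hδ t ⟨ht.2.1, ht.2.2.le⟩
      rcases hγ t with ⟨-, h3⟩ | ⟨i, u', h3, -⟩
      · rw [Metric.eventually_nhds_iff] at h3
        obtain ⟨ε, hε, h3⟩ := h3
        have hy' : t < y := hy
        set t' : ℝ := min y (t + ε / 2) with ht'
        have h4 : t < t' := lt_min hy' (by linarith)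
        refine ⟨t', ?_, h4, min_le_left _ _⟩
        intro r hr
        by_cases hrt : r ≤ t
        · exact ht.1 r ⟨hr.1, hrt⟩
        · have h5 : t < r := not_le.1 hrt
          have h6 : r ≤ t + ε / 2 := hr.2.trans (min_le_right _ _)
          have h7 : γ r = ((γ t).1 + (r - t) • (γ t).2, (γ t).2) := by
            apply h3
            rw [Real.dist_eq, abs_of_pos (by linarith)]
            linarith
          rw [h7, h1]
          refine Prod.ext ?_ rfl
          show x + t • u + (r - t) • u = x + r • u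
          rw [sub_smul]
          ring
      · exact absurd h2 (side_notMem T i h3)
  exact hmain hs s ⟨hs.1, le_refl s⟩

/-- points at distance more than `δ` from the complement -/
def inner (δ : ℝ) : Set ℂ := {x | δ < Metric.infDist x T.Qᶜ}

lemma measurable_inner (δ : ℝ) : MeasurableSet (inner T δ) :=
  (isOpen_lt continuous_const (Metric.continuous_infDist_pt _)).measurableSet

lemma inner_add {δ : ℝ} {x v : ℂ} (hx : x ∈ inner T δ) (hv : ‖v‖ ≤ δ) : x + v ∈ T.Q := by
  by_contra h
  have h1 : Metric.infDist x T.Qᶜ ≤ dist x (x + v) := Metric.infDist_le_dist_of_mem h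
  rw [dist_eq_norm, show x - (x + v) = -v by ring, norm_neg] at h1
  exact absurd (lt_of_lt_of_le hx (h1.trans hv)) (lt_irrefl _)

lemma compl_nonempty : (T.Qᶜ).Nonempty := by
  by_contra h
  rw [not_nonempty_iff_eq_empty, compl_empty_iff] at h
  have h1 := T.isBounded
  rw [h] at h1
  exact NormedSpace.unbounded_univ ℝ ℂ h1

lemma exists_inner (μ : Measure ℂ) [IsFiniteMeasure μ] {ε : ℝ} (hε : 0 < ε) :
    ∃ δ > 0, μ.real (T.Q \ inner T δ) < ε := by
  have h1 : Tendsto (fun n : ℕ => μ (T.Q \ inner T (1 / ((n : ℝ) + 1)))) atTop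
      (𝓝 (μ (⋂ n : ℕ, T.Q \ inner T (1 / ((n : ℝ) + 1))))) := by
    apply tendsto_measure_iInter_atTop
    · intro n
      exact (T.isOpen.measurableSet.diff (measurable_inner T _)).nullMeasurableSet
    · intro n m hnm x hx
      refine ⟨hx.1, fun h => hx.2 ?_⟩
      have h2 : 1 / ((m : ℝ) + 1) ≤ 1 / ((n : ℝ) + 1) := by
        have : (n : ℝ) ≤ m := by exact_mod_cast hnm
        gcongr
      exact lt_of_le_of_lt h2 h
    · exact ⟨0, measure_ne_top _ _⟩
  have h2 : (⋂ n : ℕ, T.Q \ inner T (1 / ((n : ℝ) + 1))) = ∅ := by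
    rw [eq_empty_iff_forall_notMem]
    intro x hx
    rw [mem_iInter] at hx
    have hxQ := (hx 0).1
    have h3 : 0 < Metric.infDist x T.Qᶜ := by
      have h4 : IsClosed T.Qᶜ := T.isOpen.isClosed_compl
      exact (h4.notMem_iff_infDist_pos (compl_nonempty T)).1 (fun h => h hxQ)
    obtain ⟨n, hn⟩ := exists_nat_one_div_lt h3
    exact (hx n).2 hn
  rw [h2, measure_empty] at h1
  obtain ⟨n, hn⟩ := ((tendsto_order.1 h1).2 (ENNReal.ofReal ε) (by simpa using hε)).exists
  refine ⟨1 / ((n : ℝ) + 1), by positivity, ?_⟩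
  rw [Measure.real]
  exact (ENNReal.lt_ofReal_iff_toReal_lt (measure_ne_top _ _)).1 hn

end Vale.Agent.P099.R2.H278
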